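import Vale.Agent.P050.H398.Sta

/-!
The conditionally independent amalgam of two laws.
-/

set_option linter.unusedSectionVars false

namespace Vale.Agent.P050.H398

open Finset Vale.Agent.P050.Cart

section law

variable {V A Ω₁ Ω₂ : Type} [DecidableEq V] [Fintype A] [Fintype Ω₁] [Fintype Ω₂]
  {P₁ : Ω₁ → ℝ} {P₂ : Ω₂ → ℝ} {Z₁ : V → Ω₁ → A} {Z₂ : V → Ω₂ → A}

open Classical in
/-- the conditional law of the second space, given the values on `N` -/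
noncomputable def cpl (P₂ : Ω₂ → ℝ) (Z₂ : V → Ω₂ → A) (N : Finset V) (a : {v // v ∈ N} → A)
    (ω : Ω₂) : ℝ :=
  (if fam Z₂ N ω = a then P₂ ω else 0) / mar P₂ (fam Z₂ N) a

theorem cpl_nonneg (hP : ∀ ω, 0 ≤ P₂ ω) (N : Finset V) (a : {v // v ∈ N} → A) (ω : Ω₂) :
    0 ≤ cpl P₂ Z₂ N a ω := by
  unfold cpl
  refine div_nonneg ?_ (mar_nonneg hP _ _)
  split_ifs
  · exact hP ω
  · exact le_rfl

theorem cpl_sum {N : Finset V} (h : mar P₁ (fam Z₁ N) = mar P₂ (fam Z₂ N))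
    (a : {v // v ∈ N} → A) (ha : mar P₁ (fam Z₁ N) a ≠ 0) : ∑ ω, cpl P₂ Z₂ N a ω = 1 := by
  classical
  unfold cpl
  rw [← Finset.sum_div]
  rw [h] at ha
  have e : (∑ ω, if fam Z₂ N ω = a then P₂ ω else 0) = mar P₂ (fam Z₂ N) a := by
    unfold mar
    refine Finset.sum_congr rfl fun ω _ => ?_
    split_ifs <;> rfl
  rw [e]
  exact div_self ha

variable {δ : Type} [Fintype δ]

theorem mar_cpl (N : Finset V) (a : {v // v ∈ N} → A) (F : Ω₂ → δ) (c : δ) :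
    mar (cpl P₂ Z₂ N a) F c =
      mar P₂ (fun ω => (F ω, fam Z₂ N ω)) (c, a) / mar P₂ (fam Z₂ N) a := by
  classical
  unfold cpl
  rw [show mar P₂ (fun ω => (F ω, fam Z₂ N ω)) (c, a) = ∑ ω, if F ω = c then
    (if fam Z₂ N ω = a then P₂ ω else 0) else 0 from ?_]
  · rw [Finset.sum_div]
    unfold mar
    refine Finset.sum_congr rfl fun ω _ => ?_
    by_cases h1 : F ω = c
    · by_cases h2 : fam Z₂ N ω = a
      · simp only [h1, h2, if_true]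
      · simp only [h1, h2, if_true, if_false]
    · simp only [h1, if_false, zero_div]
  · unfold mar
    refine Finset.sum_congr rfl fun ω _ => ?_
    simp only [Prod.mk.injEq]
    split_ifs with h1 h2 h3 h4 h5
    · rfl
    · exact absurd h1.2 h3
    · exact absurd h1.1 h2
    · exact absurd ⟨h4, h5⟩ h1
    · rfl
    · rfl

/-- the joint law of a function of the second part and of the values on `N` -/
theorem mar_amal {N : Finset V} (hP : ∀ ω, 0 ≤ P₂ ω)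
    (h : mar P₁ (fam Z₁ N) = mar P₂ (fam Z₂ N)) (F : Ω₂ → δ) :
    mar (ext P₁ (fam Z₁ N) (cpl P₂ Z₂ N)) (fun p => (F p.2, fam Z₁ N p.1)) =
      mar P₂ (fun ω => (F ω, fam Z₂ N ω)) := by
  funext ⟨c, a⟩
  rw [mar_ext P₁ (fam Z₁ N) (cpl P₂ Z₂ N) (fam Z₁ N) F (fun a => a) (fun _ => rfl) c a, mar_cpl, h]
  by_cases h0 : mar P₂ (fam Z₂ N) a = 0
  · rw [h0, mul_zero, mar_pair_zero' hP F (fam Z₂ N) h0]
  · field_simp

/-- the law of the values on the second set -/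
theorem mar_amal_fam {S₁ S₂ : Finset V} (hP : ∀ ω, 0 ≤ P₂ ω)
    (h : mar P₁ (fam Z₁ (S₁ ∩ S₂)) = mar P₂ (fam Z₂ (S₁ ∩ S₂))) :
    mar (ext P₁ (fam Z₁ (S₁ ∩ S₂)) (cpl P₂ Z₂ (S₁ ∩ S₂))) (fam (newZ S₁ Z₁ Z₂) S₂) =
      mar P₂ (fam Z₂ S₂) := by
  set Φ : ({v // v ∈ S₂} → A) × ({v // v ∈ S₁ ∩ S₂} → A) → ({v // v ∈ S₂} → A) := fun q v =>
    if hv : v.1 ∈ S₁ then q.2 ⟨v.1, mem_inter.2 ⟨hv, v.2⟩⟩ else q.1 v with hΦ
  have e1 : fam (newZ S₁ Z₁ Z₂) S₂ = fun p => Φ (fam Z₂ S₂ p.2, fam Z₁ (S₁ ∩ S₂) p.1) := by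
    funext p v
    simp only [hΦ]
    by_cases hv : v.1 ∈ S₁
    · rw [dif_pos hv]
      unfold fam
      rw [newZ_of_mem hv]
    · rw [dif_neg hv]
      unfold fam
      rw [newZ_of_notMem hv]
  have e2 : fam Z₂ S₂ = fun ω => Φ (fam Z₂ S₂ ω, fam Z₂ (S₁ ∩ S₂) ω) := by
    funext ω v
    simp only [hΦ]
    by_cases hv : v.1 ∈ S₁
    · rw [dif_pos hv]
      rfl
    · rw [dif_neg hv]
  have e3 := mar_amal hP h (fam Z₂ S₂)
  funext b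
  rw [e1, ← mar_mar _ (fun p : Ω₁ × Ω₂ => (fam Z₂ S₂ p.2, fam Z₁ (S₁ ∩ S₂) p.1)) Φ b, e3,
    mar_mar _ _ Φ b, ← e2]

/-- the law of a function of the values on the second set -/
theorem mar_amal_fun {S₁ S₂ : Finset V} (hP : ∀ ω, 0 ≤ P₂ ω)
    (h : mar P₁ (fam Z₁ (S₁ ∩ S₂)) = mar P₂ (fam Z₂ (S₁ ∩ S₂)))
    (g : ({v // v ∈ S₂} → A) → δ) :
    mar (ext P₁ (fam Z₁ (S₁ ∩ S₂)) (cpl P₂ Z₂ (S₁ ∩ S₂))) (fun p => g (fam (newZ S₁ Z₁ Z₂) S₂ p)) =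
      mar P₂ (fun ω => g (fam Z₂ S₂ ω)) := by
  funext b
  rw [← mar_mar _ (fam (newZ S₁ Z₁ Z₂) S₂) g b, mar_amal_fam hP h, mar_mar]

theorem eQ_amal {B : Type} [Fintype B] {S₁ S₂ : Finset V} (hP : ∀ ω, 0 ≤ P₂ ω)
    (h : mar P₁ (fam Z₁ (S₁ ∩ S₂)) = mar P₂ (fam Z₂ (S₁ ∩ S₂))) (pr : A → B) {Q : Finset V}
    (hQ : Q ⊆ S₂) :
    eQ (ext P₁ (fam Z₁ (S₁ ∩ S₂)) (cpl P₂ Z₂ (S₁ ∩ S₂))) (fun v p => pr (newZ S₁ Z₁ Z₂ v p)) Q =
      eQ P₂ (fun v ω => pr (Z₂ v ω)) Q := by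
  unfold eQ
  refine ent_law fun a => ?_
  exact congrFun (mar_amal_fun hP h (fun f (v : {v // v ∈ Q}) => pr (f ⟨v.1, hQ v.2⟩))) a

end law

section amal

variable {V U Ω₁ Ω₂ : Type} [DecidableEq V] [Fintype U] [Fintype Ω₁] [Fintype Ω₂]
  {θ : ℝ} {m : Bool → U → ℝ} {π : U → U → ℝ} {s : V → Bool} {H : SimpleGraph V}
  {S₁ S₂ : Finset V} {T₁ T₂ : Finset V → Prop} {P₁ : Ω₁ → ℝ} {P₂ : Ω₂ → ℝ}
  {Z₁ : V → Ω₁ → U × U} {Z₂ : V → Ω₂ → U × U}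

theorem dd_mono (H : SimpleGraph V) {A A' B B' : Finset V} (hA : A ⊆ A') (hB : B ⊆ B') :
    dd H A B ≤ dd H A' B' := by
  classical
  unfold dd
  refine (Finset.sum_le_sum_of_subset_of_nonneg hA fun u _ _ => ?_).trans
    (Finset.sum_le_sum fun u _ => Finset.sum_le_sum_of_subset_of_nonneg hB fun v _ _ => ?_)
  · refine Finset.sum_nonneg fun v _ => ?_
    split_ifs <;> norm_num
  · split_ifs <;> norm_num

theorem dd_zero (H : SimpleGraph V) {N : Finset V} (hN : ∀ x ∈ N, ∀ y ∈ N, ¬ H.Adj x y) :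
    dd H N N = 0 := by
  classical
  unfold dd
  refine Finset.sum_eq_zero fun x hx => Finset.sum_eq_zero fun y hy => ?_
  rw [if_neg (hN x hx y hy)]

/-- **Amalgams.** -/
theorem Sta.amal (hB : Base m π) (hθ : 0 ≤ θ) (hθ1 : θ ≤ 1) (hHC : HC θ π)
    (h₁ : Sta θ m π s H S₁ T₁ P₁ Z₁) (h₂ : Sta θ m π s H S₂ T₂ P₂ Z₂)
    (hN : ∀ x ∈ S₁ ∩ S₂, ∀ y ∈ S₁ ∩ S₂, ¬ H.Adj x y)
    (hlaw : mar P₁ (fam Z₁ (S₁ ∩ S₂)) = mar P₂ (fam Z₂ (S₁ ∩ S₂)))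
    (hno : ∀ x ∈ S₁, x ∉ S₂ → ∀ y ∈ S₂, y ∉ S₁ → ¬ H.Adj x y) :
    Sta θ m π s H (S₁ ∪ S₂) (fun Q => T₁ Q ∨ T₂ Q ∨ ∃ Q₁ Q₂, T₁ Q₁ ∧ T₂ Q₂ ∧ S₁ ∩ S₂ ⊆ Q₁ ∧
      S₁ ∩ S₂ ⊆ Q₂ ∧ Q = Q₁ ∪ Q₂) (ext P₁ (fam Z₁ (S₁ ∩ S₂)) (cpl P₂ Z₂ (S₁ ∩ S₂)))
      (newZ S₁ Z₁ Z₂) := by
  have hκ := fun a c => cpl_nonneg (Z₂ := Z₂) h₂.nonneg (S₁ ∩ S₂) a c
  have hsum := cpl_sum hlaw
  have hii := ii_nonneg hB
  have hθ' : 0 ≤ 1 - θ := sub_nonneg.2 hθ1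
  have hex1 : ∀ Q, Q ⊆ S₁ → exc θ m π (ext P₁ (fam Z₁ (S₁ ∩ S₂)) (cpl P₂ Z₂ (S₁ ∩ S₂)))
      (newZ S₁ Z₁ Z₂) Q = exc θ m π P₁ Z₁ Q := fun Q hQ => exc_new_old h₁.nonneg hsum hQ
  have hex2 : ∀ Q, Q ⊆ S₂ → exc θ m π (ext P₁ (fam Z₁ (S₁ ∩ S₂)) (cpl P₂ Z₂ (S₁ ∩ S₂)))
      (newZ S₁ Z₁ Z₂) Q = exc θ m π P₂ Z₂ Q := by
    intro Q hQ
    unfold exc
    have e0 := eQ_amal (Z₁ := Z₁) h₂.nonneg hlaw (fun a => a) hQ
    have e1 := eQ_amal (Z₁ := Z₁) h₂.nonneg hlaw (fun a => a.1) hQ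
    have e2 := eQ_amal (Z₁ := Z₁) h₂.nonneg hlaw (fun a => a.2) hQ
    have e0' : eQ (ext P₁ (fam Z₁ (S₁ ∩ S₂)) (cpl P₂ Z₂ (S₁ ∩ S₂))) (newZ S₁ Z₁ Z₂) Q =
      eQ P₂ Z₂ Q := e0
    rw [e0', e1, e2]
  refine ⟨ext_nonneg h₁.nonneg _ hκ, ext_total h₁.nonneg h₁.total hsum, ?_, ?_, ?_, ?_⟩
  · intro v hv
    by_cases hv1 : v ∈ S₁
    · rw [newZ_of_mem hv1, mar_ext_fst h₁.nonneg hsum, h₁.vertex v hv1]
    · have hv2 : v ∈ S₂ := (mem_union.1 hv).resolve_left hv1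
      have := mar_amal_fun (Z₁ := Z₁) h₂.nonneg hlaw (fun f => f ⟨v, hv2⟩)
      exact this.trans (h₂.vertex v hv2)
  · intro u hu v hv huv
    have hcase : (u ∈ S₁ ∧ v ∈ S₁) ∨ (u ∈ S₂ ∧ v ∈ S₂) := by
      by_cases hu1 : u ∈ S₁
      · by_cases hv1 : v ∈ S₁
        · exact Or.inl ⟨hu1, hv1⟩
        · have hv2 : v ∈ S₂ := (mem_union.1 hv).resolve_left hv1
          by_cases hu2 : u ∈ S₂
          · exact Or.inr ⟨hu2, hv2⟩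
          · exact absurd huv (hno u hu1 hu2 v hv2 hv1)
      · have hu2 : u ∈ S₂ := (mem_union.1 hu).resolve_left hu1
        by_cases hv2 : v ∈ S₂
        · exact Or.inr ⟨hu2, hv2⟩
        · have hv1 : v ∈ S₁ := (mem_union.1 hv).resolve_right hv2
          exact absurd huv.symm (hno v hv1 hv2 u hu2 hu1)
    rcases hcase with ⟨hu1, hv1⟩ | ⟨hu2, hv2⟩
    · rw [newZ_of_mem hu1, newZ_of_mem hv1]
      have e1 := mar_ext_fst h₁.nonneg hsum (fun ω => ((Z₁ u ω).1, (Z₁ v ω).1))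
      have e2 := mar_ext_fst h₁.nonneg hsum (fun ω => ((Z₁ u ω).2, (Z₁ v ω).2))
      exact ⟨e1.trans (h₁.edge u hu1 v hv1 huv).1, e2.trans (h₁.edge u hu1 v hv1 huv).2⟩
    · have e1 := mar_amal_fun (Z₁ := Z₁) h₂.nonneg hlaw
        (fun f => ((f ⟨u, hu2⟩).1, (f ⟨v, hv2⟩).1))
      have e2 := mar_amal_fun (Z₁ := Z₁) h₂.nonneg hlaw
        (fun f => ((f ⟨u, hu2⟩).2, (f ⟨v, hv2⟩).2))
      exact ⟨e1.trans (h₂.edge u hu2 v hv2 huv).1, e2.trans (h₂.edge u hu2 v hv2 huv).2⟩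
  · rintro Q (hQ | hQ | ⟨Q₁, Q₂, hQ₁, hQ₂, -, -, rfl⟩)
    · exact (h₁.sub Q hQ).trans subset_union_left
    · exact (h₂.sub Q hQ).trans subset_union_right
    · exact union_subset_union (h₁.sub _ hQ₁) (h₂.sub _ hQ₂)
  · rintro Q (hQ | hQ | ⟨Q₁, Q₂, hQ₁, hQ₂, hN₁, hN₂, rfl⟩)
    · rw [hex1 Q (h₁.sub Q hQ)]
      exact h₁.good Q hQ
    · rw [hex2 Q (h₂.sub Q hQ)]
      exact h₂.good Q hQ
    · have hS₁ := h₁.sub _ hQ₁
      have hS₂ := h₂.sub _ hQ₂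
      set R := Q₂ \ S₁ with hR
      have hRS : ∀ v ∈ R, v ∉ S₁ := fun v hv => (mem_sdiff.1 hv).2
      have eR1 : Q₁ ∪ Q₂ = Q₁ ∪ R := by
        ext v
        simp only [hR, mem_union, mem_sdiff]
        constructor
        · rintro (h | h)
          · exact Or.inl h
          · by_cases h' : v ∈ S₁
            · exact Or.inl (hN₁ (mem_inter.2 ⟨h', hS₂ h⟩))
            · exact Or.inr ⟨h, h'⟩
        · rintro (h | h)
          · exact Or.inl h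
          · exact Or.inr h.1
      have eR2 : (S₁ ∩ S₂) ∪ R = Q₂ := by
        ext v
        simp only [hR, mem_union, mem_sdiff]
        constructor
        · rintro (h | h)
          · exact hN₂ h
          · exact h.1
        · intro h
          by_cases h' : v ∈ S₁
          · exact Or.inl (mem_inter.2 ⟨h', hS₂ h⟩)
          · exact Or.inr ⟨h, h'⟩
      have hle := exc_new_le (θ := θ) (m := m) (π := π) (G := Z₂) hθ h₁.nonneg hκ hsum hN₁ hS₁ hRS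
      rw [eR2, hex2 Q₂ hS₂, ← eR1] at hle
      have hN0 : 0 ≤ exc θ m π P₁ Z₁ (S₁ ∩ S₂) := exc_nonneg hB hθ hHC h₁.nonneg h₁.total
        fun v hv => h₁.vertex v (inter_subset_left hv)
      have hdis1 : Disjoint Q₁ R := by
        rw [Finset.disjoint_left]
        exact fun v hv hv' => hRS v hv' (hS₁ hv)
      have hdis2 : Disjoint (S₁ ∩ S₂) R := by
        rw [Finset.disjoint_left]
        exact fun v hv hv' => hRS v hv' (inter_subset_left hv)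
      have hdd : dd H Q₁ Q₁ + dd H Q₂ Q₂ ≤ dd H (Q₁ ∪ Q₂) (Q₁ ∪ Q₂) := by
        have e1 := dd_union H hdis1
        have e2 := dd_union H hdis2
        rw [← eR1] at e1
        rw [eR2, dd_zero H hN] at e2
        have e3 : dd H R (S₁ ∩ S₂) ≤ dd H R Q₁ := dd_mono H subset_rfl hN₁
        rw [e1, e2]
        linarith
      have g1 := h₁.good Q₁ hQ₁
      have g2 := h₂.good Q₂ hQ₂
      have k := mul_le_mul_of_nonneg_right (mul_le_mul_of_nonneg_left hdd hθ') hii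
      linarith

end amal

end Vale.Agent.P050.H398
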