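import Vale.Agent.P050.H398.ClonedDefs

/-!
Basic facts on cloned graphs.
-/

namespace Vale.Agent.P050

open Finset

variable {V : Type} [DecidableEq V] {H : SimpleGraph V} {s : V → Bool}

theorem Cloned.sub {S : Finset V} {T : Finset V → Prop}
    (h : Cloned H s S T) : ∀ Q, T Q → Q ⊆ S := by
  induction h with
  | vertex v => exact fun Q hQ => hQ
  | edge u v huv => exact fun Q hQ => hQ
  | glue _ _ _ _ ih₁ ih₂ =>
    rintro Q (hQ | hQ | ⟨Q₁, Q₂, hQ₁, hQ₂, -, -, rfl⟩)
    · exact (ih₁ Q hQ).trans subset_union_left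
    · exact (ih₂ Q hQ).trans subset_union_right
    · exact union_subset_union (ih₁ _ hQ₁) (ih₂ _ hQ₂)
  | clone h N R σ hNR hR hN hσN hσS hσ hσs hadj hno ih =>
    rintro Q (hQ | ⟨Q₂, -, hQ₂, rfl⟩ | ⟨Q₁, Q₂, hQ₁, ⟨-, hQ₂⟩, -, -, rfl⟩)
    · exact (ih Q hQ).trans subset_union_left
    · exact (image_subset_image hQ₂).trans subset_union_right
    · exact union_subset_union (ih _ hQ₁) (image_subset_image hQ₂)

theorem Cloned.top {S : Finset V} {T : Finset V → Prop}
    (h : Cloned H s S T) : T S := by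
  induction h with
  | vertex v => exact subset_rfl
  | edge u v huv => exact subset_rfl
  | glue _ _ _ _ ih₁ ih₂ =>
    exact Or.inr (Or.inr ⟨_, _, ih₁, ih₂, inter_subset_left, inter_subset_right, rfl⟩)
  | clone h N R σ hNR hR hN hσN hσS hσ hσs hadj hno ih =>
    exact Or.inr (Or.inr ⟨_, _, ih, ⟨hR, subset_rfl⟩, hNR.trans (h.sub R hR), hNR, rfl⟩)

end Vale.Agent.P050
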