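import Vale.Agent.P050.H398.MulDefs
import Vale.Agent.P050.H398.ClonedBasic
import Mathlib.Combinatorics.SimpleGraph.Metric
import Mathlib.Combinatorics.SimpleGraph.Acyclic

/-!
Tree-arrangeable graphs are cloned graphs.
-/

set_option linter.unusedSectionVars false

namespace Vale.Agent.P050.H398

open Finset

variable {V : Type} [DecidableEq V] {H : SimpleGraph V} {s : V → Bool}

/-- new vertices with one neighbour -/
theorem cloned_pendants {S : Finset V} {T : Finset V → Prop} (h : Cloned H s S T) {a : V}
    (ha : a ∈ S) (P : Finset V) (hPS : ∀ b ∈ P, b ∉ S)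
    (hPa : ∀ b ∈ P, H.Adj a b)
    (hPn : ∀ b ∈ P, ∀ x ∈ S, x ≠ a → ¬ H.Adj b x) (hPP : ∀ b ∈ P, ∀ x ∈ P, ¬ H.Adj b x) :
    ∃ T', Cloned H s (S ∪ P) T' ∧ (∀ Q, T Q → T' Q) ∧
      ∀ Q P', T Q → a ∈ Q → P' ⊆ P → T' (Q ∪ P') := by
  induction P using Finset.induction_on with
  | empty =>
    refine ⟨T, by rw [union_empty]; exact h, fun Q hQ => hQ, fun Q P' hQ _ hP' => ?_⟩
    rw [Finset.subset_empty.1 hP', union_empty]
    exact hQ
  | insert b P hb ih =>
    obtain ⟨T', hc, hT, hT'⟩ := ih (fun b hb => hPS b (mem_insert_of_mem hb))
      (fun b hb => hPa b (mem_insert_of_mem hb)) (fun b hb => hPn b (mem_insert_of_mem hb))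
      (fun b hb x hx => hPP b (mem_insert_of_mem hb) x (mem_insert_of_mem hx))
    have hbS := hPS b (mem_insert_self _ _)
    have hab := hPa b (mem_insert_self _ _)
    have hint : (S ∪ P) ∩ {a, b} = {a} := by
      ext x
      simp only [mem_inter, mem_union, mem_insert, mem_singleton]
      constructor
      · rintro ⟨h1 | h1, h2 | h2⟩
        · exact h2
        · exact absurd (h2 ▸ h1) hbS
        · exact h2
        · exact absurd (h2 ▸ h1) hb
      · rintro rfl
        exact ⟨Or.inl ha, Or.inl rfl⟩
    have hg := hc.glue (Cloned.edge a b hab) (by rw [hint, card_singleton]) (by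
      intro x hx hx2 y hy hy1
      have hyb : y = b := by
        rcases mem_insert.1 hy with h1 | h1
        · exact absurd (h1 ▸ mem_union_left _ ha) hy1
        · exact mem_singleton.1 h1
      rw [hyb]
      intro hxb
      have hxa : x ≠ a := fun h => hx2 (by rw [h]; exact mem_insert_self _ _)
      rcases mem_union.1 hx with h1 | h1
      · exact hPn b (mem_insert_self _ _) x h1 hxa hxb.symm
      · exact hPP b (mem_insert_self _ _) x (mem_insert_of_mem h1) hxb.symm)
    have hS : (S ∪ P) ∪ {a, b} = S ∪ insert b P := by
      ext x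
      simp only [mem_union, mem_insert, mem_singleton]
      constructor
      · rintro ((h1 | h1) | h1 | h1)
        · exact Or.inl h1
        · exact Or.inr (Or.inr h1)
        · exact Or.inl (h1 ▸ ha)
        · exact Or.inr (Or.inl h1)
      · rintro (h1 | h1 | h1)
        · exact Or.inl (Or.inl h1)
        · exact Or.inr (Or.inr h1)
        · exact Or.inl (Or.inr h1)
    rw [hS] at hg
    refine ⟨_, hg, fun Q hQ => Or.inl (hT Q hQ), ?_⟩
    · intro Q P' hQ haQ hP'
      by_cases hbP : b ∈ P'
      · refine Or.inr (Or.inr ⟨Q ∪ P'.erase b, {a, b}, hT' Q _ hQ haQ ?_, subset_rfl, ?_, ?_, ?_⟩)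
        · intro x hx
          exact (mem_insert.1 (hP' (mem_of_mem_erase hx))).resolve_left (ne_of_mem_erase hx)
        · rw [hint, singleton_subset_iff]
          exact mem_union_left _ haQ
        · rw [hint, singleton_subset_iff]
          exact mem_insert_self _ _
        · ext x
          simp only [mem_union, mem_insert, mem_singleton, mem_erase]
          constructor
          · rintro (h1 | h1)
            · exact Or.inl (Or.inl h1)
            · by_cases hxb : x = b
              · exact Or.inr (Or.inr hxb)
              · exact Or.inl (Or.inr ⟨hxb, h1⟩)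
          · rintro ((h1 | h1) | h1 | h1)
            · exact Or.inl h1
            · exact Or.inr h1.2
            · exact Or.inl (h1 ▸ haQ)
            · exact Or.inr (h1 ▸ hbP)
      · refine Or.inl (hT' Q P' hQ haQ fun x hx => (mem_insert.1 (hP' hx)).resolve_left ?_)
        rintro rfl
        exact hbP hx

/-- new isolated vertices -/
theorem cloned_isolated {S : Finset V} {T : Finset V → Prop} (h : Cloned H s S T)
    (P : Finset V) (hPS : ∀ b ∈ P, b ∉ S) (hP : ∀ b ∈ P, ∀ x, ¬ H.Adj b x) :
    ∃ T', Cloned H s (S ∪ P) T' := by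
  induction P using Finset.induction_on with
  | empty => exact ⟨T, by rw [union_empty]; exact h⟩
  | insert b P hb ih =>
    obtain ⟨T', hc⟩ := ih (fun b hb => hPS b (mem_insert_of_mem hb))
      (fun b hb => hP b (mem_insert_of_mem hb))
    have hint : (S ∪ P) ∩ {b} = ∅ := by
      ext x
      simp only [mem_inter, mem_union, mem_singleton, notMem_empty, iff_false]
      rintro ⟨h1 | h1, rfl⟩
      · exact hPS x (mem_insert_self _ _) h1
      · exact hb h1
    have hg := hc.glue (Cloned.vertex b) (by rw [hint, card_empty]; exact Nat.zero_le _) (by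
      intro x _ _ y hy _ hxy
      rw [mem_singleton.1 hy] at hxy
      exact hP b (mem_insert_self _ _) x hxy.symm)
    have hS : (S ∪ P) ∪ {b} = S ∪ insert b P := by
      ext x
      simp only [mem_union, mem_insert, mem_singleton]
      tauto
    rw [hS] at hg
    exact ⟨_, hg⟩

section rip

variable {V : Type} [Fintype V] [DecidableEq V] {H : SimpleGraph V} {s : V → Bool}

open Classical in
/-- the neighbours of a set -/
noncomputable def nb (H : SimpleGraph V) (D : Finset V) : Finset V :=
  univ.filter fun b => ∃ a ∈ D, H.Adj a b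

theorem mem_nb {D : Finset V} {b : V} : b ∈ nb H D ↔ ∃ a ∈ D, H.Adj a b := by
  simp [nb]

theorem mem_nb_single {a b : V} : b ∈ nb H {a} ↔ H.Adj a b := by
  simp [nb]

theorem side_of_adj (hs : ∀ u v, H.Adj u v → s u ≠ s v) {a b : V} (ha : s a = false)
    (h : H.Adj a b) : s b = true := by
  have := hs a b h
  rw [ha] at this
  cases hb : s b
  · exact absurd hb.symm this
  · rfl

theorem side_nb (hs : ∀ u v, H.Adj u v → s u ≠ s v) {D : Finset V} (hD : ∀ a ∈ D, s a = false)
    {b : V} (h : b ∈ nb H D) : s b = true := by
  obtain ⟨a, ha, hab⟩ := mem_nb.1 h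
  exact side_of_adj hs (hD a ha) hab

theorem cloned_rip (hs : ∀ u v, H.Adj u v → s u ≠ s v) {r : V} {d : V → ℕ} {par : V → V}
    (hdr : ∀ a, s a = false → d r ≤ d a)
    (hpar : ∀ a, s a = false → a ≠ r → s (par a) = false ∧ d (par a) < d a)
    (hrip : ∀ a a' b, s a = false → s a' = false → a ≠ r → a' ≠ a → d a' ≤ d a → H.Adj a b →
      H.Adj a' b → H.Adj (par a) b) :
    ∀ n : ℕ, ∀ D : Finset V, D.card = n → r ∈ D → (∀ a ∈ D, s a = false) →
      (∀ a ∈ D, ∀ a', s a' = false → d a' < d a → a' ∈ D) →
      ∃ T, Cloned H s (D ∪ nb H D) T ∧ ∀ a ∈ D, ∀ M, M ⊆ nb H {a} → T (insert a M) := by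
  intro n
  induction n with
  | zero =>
    intro D hD hr
    rw [Finset.card_eq_zero.1 hD] at hr
    exact absurd hr (notMem_empty _)
  | succ n ih =>
    intro D hDn hr hD hseg
    by_cases hne : (D.erase r).Nonempty
    · obtain ⟨a, ha, hmax⟩ := Finset.exists_max_image (D.erase r) d hne
      have har : a ≠ r := ne_of_mem_erase ha
      have haD : a ∈ D := mem_of_mem_erase ha
      have hsa := hD a haD
      have hmax' : ∀ x ∈ D, d x ≤ d a := by
        intro x hx
        by_cases hxr : x = r
        · rw [hxr]
          exact hdr a hsa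
        · exact hmax x (mem_erase.2 ⟨hxr, hx⟩)
      set D' := D.erase a with hD'
      have hD's : ∀ x ∈ D', s x = false := fun x hx => hD x (mem_of_mem_erase hx)
      obtain ⟨T, hc, hT⟩ := ih D' (by rw [hD', card_erase_of_mem haD, hDn]; rfl)
        (mem_erase.2 ⟨har.symm, hr⟩) hD's (fun x hx a' ha' hlt => mem_erase.2 ⟨fun h => by
            rw [h] at hlt
            exact absurd (hmax' x (mem_of_mem_erase hx)) (not_le.2 hlt),
          hseg x (mem_of_mem_erase hx) a' ha' hlt⟩)
      obtain ⟨hsp, hdp⟩ := hpar a hsa har
      set p := par a with hp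
      have hpD' : p ∈ D' := mem_erase.2 ⟨fun h => by
        rw [h] at hdp
        exact lt_irrefl _ hdp, hseg a haD p hsp hdp⟩
      set M₀ := nb H {a} ∩ nb H D' with hM₀
      have hM₀a : ∀ b ∈ M₀, H.Adj a b := fun b hb => mem_nb_single.1 (mem_inter.1 hb).1
      have hM₀p : ∀ b ∈ M₀, H.Adj p b := by
        intro b hb
        obtain ⟨a', ha', hab'⟩ := mem_nb.1 (mem_inter.1 hb).2
        exact hrip a a' b hsa (hD's a' ha') har (ne_of_mem_erase ha')
          (hmax' a' (mem_of_mem_erase ha')) (hM₀a b hb) hab'
      have hM₀s : ∀ b ∈ M₀, s b = true := fun b hb => side_of_adj hs hsa (hM₀a b hb)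
      have hpM₀ : p ∉ M₀ := fun h => by
        have := hM₀s p h
        rw [hsp] at this
        exact absurd this (by simp)
      have haM₀ : a ∉ M₀ := fun h => by
        have := hM₀s a h
        rw [hsa] at this
        exact absurd this (by simp)
      set σ : V → V := fun x => if x = p then a else x with hσ
      have hσp : σ p = a := by simp [hσ]
      have hσM : ∀ x ∈ M₀, σ x = x := by
        intro x hx
        simp only [hσ]
        rw [if_neg]
        rintro rfl
        exact hpM₀ hx
      have hTR : T (insert p M₀) := hT p hpD' M₀ fun b hb => mem_nb_single.2 (hM₀p b hb)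
      have haS : a ∉ D' ∪ nb H D' := by
        intro h
        rcases mem_union.1 h with h | h
        · exact ne_of_mem_erase h rfl
        · have := side_nb hs hD's h
          rw [hsa] at this
          exact absurd this (by simp)
      have hclone := hc.clone M₀ (insert p M₀) σ (subset_insert _ _) hTR
        (fun x hx y hy hxy => hs x y hxy (by rw [hM₀s x hx, hM₀s y hy])) hσM
        (fun x hx hxM => by
          have : x = p := (mem_insert.1 hx).resolve_right hxM
          rw [this, hσp]
          exact haS)
        (by
          intro x hx y hy hxy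
          have hx' := Finset.mem_coe.1 hx
          have hy' := Finset.mem_coe.1 hy
          rcases mem_insert.1 hx' with hx1 | hx1
          · rcases mem_insert.1 hy' with hy1 | hy1
            · rw [hx1, hy1]
            · rw [hx1, hσp, hσM y hy1] at hxy
              exact absurd (hxy ▸ hy1) haM₀
          · rcases mem_insert.1 hy' with hy1 | hy1
            · rw [hy1, hσp, hσM x hx1] at hxy
              exact absurd (hxy ▸ hx1) haM₀
            · rw [hσM x hx1, hσM y hy1] at hxy
              exact hxy)
        (fun x hx => by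
          rcases mem_insert.1 hx with hx1 | hx1
          · rw [hx1, hσp, hsa, hsp]
          · rw [hσM x hx1])
        (by
          intro x hx y hy
          rcases mem_insert.1 hx with hx1 | hx1
          · rcases mem_insert.1 hy with hy1 | hy1
            · rw [hx1, hy1]
              exact ⟨fun h => absurd h H.irrefl, fun h => absurd h H.irrefl⟩
            · rw [hx1, hσp, hσM y hy1]
              exact ⟨fun _ => hM₀p y hy1, fun _ => hM₀a y hy1⟩
          · rcases mem_insert.1 hy with hy1 | hy1
            · rw [hy1, hσp, hσM x hx1]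
              exact ⟨fun _ => (hM₀p x hx1).symm, fun _ => (hM₀a x hx1).symm⟩
            · rw [hσM x hx1, hσM y hy1])
        (fun x hx hxM y hy hyM hxy => by
          have : x = p := (mem_insert.1 hx).resolve_right hxM
          rw [this, hσp] at hxy
          rcases mem_union.1 hy with h | h
          · exact hs a y hxy (by rw [hsa, hD's y h])
          · exact hyM (mem_inter.2 ⟨mem_nb_single.2 hxy, h⟩))
      have himage : ∀ M, M ⊆ M₀ → (insert p M).image σ = insert a M := by
        intro M hM
        rw [image_insert, hσp]
        congr 1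
        ext x
        rw [mem_image]
        constructor
        · rintro ⟨y, hy, rfl⟩
          rw [hσM y (hM hy)]
          exact hy
        · intro hx
          exact ⟨x, hx, hσM x (hM hx)⟩
      have hS₁ : (D' ∪ nb H D') ∪ (insert p M₀).image σ = D ∪ nb H D' := by
        rw [himage M₀ subset_rfl]
        ext x
        simp only [mem_union, mem_insert, hD', mem_erase]
        constructor
        · rintro ((h | h) | h | h)
          · exact Or.inl h.2
          · exact Or.inr h
          · exact Or.inl (h ▸ haD)
          · exact Or.inr (mem_inter.1 h).2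
        · rintro (h | h)
          · by_cases hxa : x = a
            · exact Or.inr (Or.inl hxa)
            · exact Or.inl (Or.inl ⟨hxa, h⟩)
          · exact Or.inl (Or.inr h)
      rw [hS₁] at hclone
      have hPa : ∀ b ∈ nb H {a} \ nb H D', H.Adj a b := fun b hb =>
        mem_nb_single.1 (mem_sdiff.1 hb).1
      have hPs : ∀ b ∈ nb H {a} \ nb H D', s b = true := fun b hb =>
        side_of_adj hs hsa (hPa b hb)
      obtain ⟨T₂, hc₂, hT₂, hT₂'⟩ := cloned_pendants hclone (a := a) (mem_union_left _ haD)
        (nb H {a} \ nb H D')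
        (fun b hb h => by
          rcases mem_union.1 h with h | h
          · have := hPs b hb
            rw [hD b h] at this
            exact absurd this (by simp)
          · exact (mem_sdiff.1 hb).2 h)
        hPa
        (fun b hb x hx hxa hbx => by
          rcases mem_union.1 hx with h | h
          · exact (mem_sdiff.1 hb).2 (mem_nb.2 ⟨x, mem_erase.2 ⟨hxa, h⟩, hbx.symm⟩)
          · exact hs b x hbx (by rw [hPs b hb, side_nb hs hD's h]))
        (fun b hb x hx hbx => hs b x hbx (by rw [hPs b hb, hPs x hx]))
      have hS₂ : (D ∪ nb H D') ∪ (nb H {a} \ nb H D') = D ∪ nb H D := by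
        ext x
        simp only [mem_union, mem_sdiff, mem_nb, mem_singleton, exists_eq_left, hD', mem_erase]
        constructor
        · rintro ((h | ⟨y, hy, h⟩) | h)
          · exact Or.inl h
          · exact Or.inr ⟨y, hy.2, h⟩
          · exact Or.inr ⟨a, haD, h.1⟩
        · rintro (h | ⟨y, hy, h⟩)
          · exact Or.inl (Or.inl h)
          · by_cases hex : ∃ z, (z ≠ a ∧ z ∈ D) ∧ H.Adj z x
            · exact Or.inl (Or.inr hex)
            · refine Or.inr ⟨?_, hex⟩
              by_cases hya : y = a
              · exact hya ▸ h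
              · exact absurd ⟨y, ⟨hya, hy⟩, h⟩ hex
      rw [hS₂] at hc₂
      refine ⟨T₂, hc₂, fun x hx M hM => ?_⟩
      by_cases hxa : x = a
      · rw [hxa] at hM ⊢
        have hcopy : T₂ (insert a (M ∩ M₀) ∪ (M \ M₀)) := by
          refine hT₂' _ _ (Or.inr (Or.inl ⟨insert p (M ∩ M₀), ?_, ?_, ?_⟩)) (mem_insert_self _ _) ?_
          · exact hT p hpD' _ fun b hb => mem_nb_single.2 (hM₀p b (mem_inter.1 hb).2)
          · exact insert_subset_insert _ inter_subset_right
          · exact (himage _ inter_subset_right).symm
          · intro b hb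
            rw [mem_sdiff] at hb ⊢
            exact ⟨hM hb.1, fun h => hb.2 (mem_inter.2 ⟨hM hb.1, h⟩)⟩
        have e : insert a (M ∩ M₀) ∪ (M \ M₀) = insert a M := by
          ext x
          simp only [mem_union, mem_insert, mem_inter, mem_sdiff]
          tauto
        rw [← e]
        exact hcopy
      · exact hT₂ _ (Or.inl (hT x (mem_erase.2 ⟨hxa, hx⟩) M hM))
    · have hDr : D = {r} := by
        rw [not_nonempty_iff_eq_empty] at hne
        ext x
        rw [mem_singleton]
        constructor
        · intro hx
          by_contra hxr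
          have : x ∈ D.erase r := mem_erase.2 ⟨hxr, hx⟩
          rw [hne] at this
          exact notMem_empty _ this
        · rintro rfl
          exact hr
      have hsr := hD r hr
      obtain ⟨T, hc, hT, hT'⟩ := cloned_pendants (Cloned.vertex (H := H) (s := s) r) (a := r)
        (mem_singleton_self r) (nb H {r})
        (fun b hb h => by
          rw [mem_singleton.1 h] at hb
          exact H.irrefl (mem_nb_single.1 hb))
        (fun b hb => mem_nb_single.1 hb)
        (fun b _ x hx hxr => absurd (mem_singleton.1 hx) hxr)
        (fun b hb x hx hbx => hs b x hbx (by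
          rw [side_of_adj hs hsr (mem_nb_single.1 hb), side_of_adj hs hsr (mem_nb_single.1 hx)]))
      rw [hDr]
      refine ⟨T, hc, fun a ha M hM => ?_⟩
      rw [mem_singleton.1 ha] at hM ⊢
      rw [insert_eq]
      exact hT' {r} M subset_rfl (mem_singleton_self r) hM

/-- **Running intersection.** -/
theorem isCloned_rip (hs : ∀ u v, H.Adj u v → s u ≠ s v) {r : V} (hr : s r = false) {d : V → ℕ}
    {par : V → V} (hdr : ∀ a, s a = false → d r ≤ d a)
    (hpar : ∀ a, s a = false → a ≠ r → s (par a) = false ∧ d (par a) < d a)
    (hrip : ∀ a a' b, s a = false → s a' = false → a ≠ r → a' ≠ a → d a' ≤ d a → H.Adj a b →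
      H.Adj a' b → H.Adj (par a) b) : IsCloned H := by
  classical
  set D : Finset V := univ.filter fun a => s a = false with hD
  have hDm : ∀ a, a ∈ D ↔ s a = false := fun a => by simp [hD]
  obtain ⟨T, hc, -⟩ := cloned_rip hs hdr hpar hrip D.card D rfl ((hDm r).2 hr)
    (fun a ha => (hDm a).1 ha) (fun _ _ a' ha' _ => (hDm a').2 ha')
  obtain ⟨T', hc'⟩ := cloned_isolated hc (univ \ (D ∪ nb H D))
    (fun b hb => (mem_sdiff.1 hb).2) (fun b hb x hbx => by
      have h1 := (mem_sdiff.1 hb).2
      have h2 : b ∉ D := fun h => h1 (mem_union_left _ h)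
      have h3 : b ∉ nb H D := fun h => h1 (mem_union_right _ h)
      rw [hDm] at h2
      have h4 : s x = false := by
        have := hs b x hbx
        cases hb : s b
        · exact absurd hb h2
        · cases hx : s x
          · rfl
          · exact absurd (hb.trans hx.symm) this
      exact h3 (mem_nb.2 ⟨x, (hDm x).2 h4, hbx.symm⟩))
  rw [union_sdiff_of_subset (subset_univ _)] at hc'
  exact ⟨s, T', hs, hc'⟩

end rip

end Vale.Agent.P050.H398
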