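import Mathlib.Combinatorics.SimpleGraph.Basic
import Mathlib.Data.Finset.Union

/-!
Graphs built from vertices and edges by gluing at one vertex and by cloning.
-/

namespace Vale.Agent.P050

/-- `Cloned H s S T` says that the subgraph of `H` induced on the vertex set `S` is built by the
following steps, and that `T` lists the subsets of `S` which may be copied.
* `vertex`, `edge`: one vertex, or one edge; all subsets may be copied.
* `glue`: two such graphs that share at most one vertex.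
* `clone`: `R` may be copied and `N ⊆ R` is an independent set. A new copy of `R` is added, which
  shares exactly `N` with the old graph: the map `σ` fixes `N`, and sends the other vertices of `R`
  to new vertices of the same colour, whose old neighbours are all in `N`.
-/
inductive Cloned {V : Type} [DecidableEq V] (H : SimpleGraph V) (s : V → Bool) :
    Finset V → (Finset V → Prop) → Prop
  | vertex (v : V) : Cloned H s {v} fun Q => Q ⊆ {v}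
  | edge (u v : V) (h : H.Adj u v) : Cloned H s {u, v} fun Q => Q ⊆ {u, v}
  | glue {S₁ S₂ : Finset V} {T₁ T₂ : Finset V → Prop} (h₁ : Cloned H s S₁ T₁)
      (h₂ : Cloned H s S₂ T₂) (hcard : (S₁ ∩ S₂).card ≤ 1)
      (hno : ∀ x ∈ S₁, x ∉ S₂ → ∀ y ∈ S₂, y ∉ S₁ → ¬ H.Adj x y) :
      Cloned H s (S₁ ∪ S₂) fun Q => T₁ Q ∨ T₂ Q ∨
        ∃ Q₁ Q₂, T₁ Q₁ ∧ T₂ Q₂ ∧ S₁ ∩ S₂ ⊆ Q₁ ∧ S₁ ∩ S₂ ⊆ Q₂ ∧ Q = Q₁ ∪ Q₂
  | clone {S : Finset V} {T : Finset V → Prop} (h : Cloned H s S T) (N R : Finset V) (σ : V → V)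
      (hNR : N ⊆ R) (hR : T R) (hN : ∀ x ∈ N, ∀ y ∈ N, ¬ H.Adj x y) (hσN : ∀ x ∈ N, σ x = x)
      (hσS : ∀ x ∈ R, x ∉ N → σ x ∉ S) (hσ : Set.InjOn σ R) (hs : ∀ x ∈ R, s (σ x) = s x)
      (hadj : ∀ x ∈ R, ∀ y ∈ R, H.Adj (σ x) (σ y) ↔ H.Adj x y)
      (hno : ∀ x ∈ R, x ∉ N → ∀ y ∈ S, y ∉ N → ¬ H.Adj (σ x) y) :
      Cloned H s (S ∪ R.image σ) fun Q => T Q ∨ (∃ Q₂, T Q₂ ∧ Q₂ ⊆ R ∧ Q = Q₂.image σ) ∨
        ∃ Q₁ Q₂, T Q₁ ∧ (T Q₂ ∧ Q₂ ⊆ R) ∧ N ⊆ Q₁ ∧ N ⊆ Q₂ ∧ Q = Q₁ ∪ Q₂.image σ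

end Vale.Agent.P050
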