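import Vale.Agent.P050.H398.Hc

/-!
Conditional laws, and the hypercontractive inequality of a maximiser.
-/

set_option linter.unusedSectionVars false

namespace Vale.Agent.P050.H398

open Finset Vale.Agent.P050.Cart

section cont

variable {Ω α : Type} [Fintype Ω] [Fintype α]

theorem continuous_mar (f : Ω → α) (a : α) : Continuous (fun r : Ω → ℝ => mar r f a) := by
  classical
  unfold mar
  refine continuous_finsetSum _ fun ω _ => ?_
  split_ifs
  · exact continuous_apply ω
  · exact continuous_const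

theorem continuous_ent (f : Ω → α) : Continuous (fun r : Ω → ℝ => ent r f) := by
  unfold ent
  refine (continuous_finsetSum _ fun a _ => ?_).neg
  exact Real.continuous_mul_log.comp (continuous_mar f a)

end cont

section cond

variable {Ω α X γ : Type} [Fintype Ω] [Fintype α] [Fintype X] [Fintype γ]

/-- the law of `Z` given `w = a` -/
noncomputable def cnd (P : Ω → ℝ) (w : Ω → α) (Z : Ω → X) (a : α) (x : X) : ℝ :=
  mar P (fun ω => (w ω, Z ω)) (a, x) / mar P w a

theorem mar_pair_comp (P : Ω → ℝ) (w : Ω → α) (Z : Ω → X) (F : X → γ) (a : α) (c : γ) :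
    mar (fun x => mar P (fun ω => (w ω, Z ω)) (a, x)) F c =
      mar P (fun ω => (w ω, F (Z ω))) (a, c) := by
  classical
  have h := mar_mar P (fun ω => (w ω, Z ω)) (fun p : α × X => (p.1, F p.2)) (a, c)
  rw [← h]
  unfold mar
  rw [Fintype.sum_prod_type, Finset.sum_eq_single a]
  · simp
  · intro a' _ ha
    simp [ha]
  · intro hn
    exact absurd (mem_univ _) hn

theorem mar_cnd (P : Ω → ℝ) (w : Ω → α) (Z : Ω → X) (F : X → γ) (a : α) (c : γ) :
    mar (cnd P w Z a) F c = mar P (fun ω => (w ω, F (Z ω))) (a, c) / mar P w a := by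
  classical
  rw [← mar_pair_comp P w Z F a c]
  unfold mar cnd
  rw [Finset.sum_div]
  refine Finset.sum_congr rfl fun x _ => ?_
  split_ifs
  · rfl
  · rw [zero_div]

theorem mar_pair_zero {P : Ω → ℝ} (hP : ∀ ω, 0 ≤ P ω) (w : Ω → α) (g : Ω → γ) {a : α}
    (h : mar P w a = 0) (c : γ) : mar P (fun ω => (w ω, g ω)) (a, c) = 0 := by
  rw [← mar_fst P w g] at h
  exact (Finset.sum_eq_zero_iff_of_nonneg fun c _ => mar_nonneg hP _ _).1 h c (mem_univ c)

theorem mar_pair_zero' {P : Ω → ℝ} (hP : ∀ ω, 0 ≤ P ω) (w : Ω → α) (g : Ω → γ) {c : γ}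
    (h : mar P g c = 0) (a : α) : mar P (fun ω => (w ω, g ω)) (a, c) = 0 := by
  rw [← mar_snd P w g] at h
  exact (Finset.sum_eq_zero_iff_of_nonneg fun c _ => mar_nonneg hP _ _).1 h a (mem_univ a)

theorem cnd_ent {P : Ω → ℝ} (hP : ∀ ω, 0 ≤ P ω) (w : Ω → α) (Z : Ω → X) (F : X → γ) (a : α) :
    mar P w a * ent (cnd P w Z a) F =
      - ∑ c, mar P (fun ω => (w ω, F (Z ω))) (a, c) *
        Real.log (mar P (fun ω => (w ω, F (Z ω))) (a, c)) +
      mar P w a * Real.log (mar P w a) := by
  by_cases h0 : mar P w a = 0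
  · rw [h0, zero_mul, zero_mul, add_zero]
    simp [mar_pair_zero hP w (fun ω => F (Z ω)) h0]
  unfold ent
  simp_rw [mar_cnd]
  have h1 : mar P w a * Real.log (mar P w a) =
      ∑ c, mar P (fun ω => (w ω, F (Z ω))) (a, c) * Real.log (mar P w a) := by
    rw [← Finset.sum_mul, mar_fst P w (fun ω => F (Z ω)) a]
  rw [h1, mul_neg, Finset.mul_sum, ← Finset.sum_neg_distrib, ← Finset.sum_neg_distrib,
    ← Finset.sum_add_distrib]
  refine Finset.sum_congr rfl fun c _ => ?_
  by_cases h2 : mar P (fun ω => (w ω, F (Z ω))) (a, c) = 0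
  · rw [h2]; simp
  · rw [Real.log_div h2 h0]
    field_simp
    ring

theorem sum_cnd_ent {P : Ω → ℝ} (hP : ∀ ω, 0 ≤ P ω) (w : Ω → α) (Z : Ω → X) (F : X → γ) :
    ∑ a, mar P w a * ent (cnd P w Z a) F = ent P (fun ω => (w ω, F (Z ω))) - ent P w := by
  simp_rw [cnd_ent hP]
  rw [Finset.sum_add_distrib, Finset.sum_neg_distrib]
  unfold ent
  rw [Fintype.sum_prod_type]
  ring

theorem sum_cnd_lin {P : Ω → ℝ} (hP : ∀ ω, 0 ≤ P ω) (w : Ω → α) (Z : Ω → X) (L : X → ℝ) :
    ∑ a, mar P w a * ∑ x, cnd P w Z a x * L x = ∑ x, mar P Z x * L x := by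
  have h1 : ∀ a x, mar P w a * (cnd P w Z a x * L x) = mar P (fun ω => (w ω, Z ω)) (a, x) * L x := by
    intro a x
    unfold cnd
    by_cases h0 : mar P w a = 0
    · rw [h0, mar_pair_zero hP w Z h0]; simp
    · field_simp
  simp_rw [Finset.mul_sum, h1]
  rw [Finset.sum_comm]
  simp_rw [← Finset.sum_mul, mar_snd P w Z]

end cond

section max

variable {U : Type} [Fintype U]

/-- the functional that is maximised -/
noncomputable def Gf (e n : ℝ) (L : U × U → ℝ) (r : U × U → ℝ) : ℝ :=
  e * ent r (fun p => p) - (e - n) * (ent r (fun p => p.1) + ent r (fun p => p.2)) +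
    ∑ p, r p * L p

theorem continuous_Gf (e n : ℝ) (L : U × U → ℝ) : Continuous (Gf e n L) := by
  unfold Gf
  refine Continuous.add (Continuous.sub (continuous_const.mul (continuous_ent _))
    (continuous_const.mul ((continuous_ent _).add (continuous_ent _)))) ?_
  refine continuous_finsetSum _ fun p _ => ?_
  exact (continuous_apply p).mul continuous_const

theorem hc_of_max {e n : ℝ} (he : 0 < e) {L r : U × U → ℝ}
    (hmax : ∀ r' : U × U → ℝ, (∀ p, 0 ≤ r' p) → ∑ p, r' p = 1 → (∀ p, r p = 0 → r' p = 0) →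
      Gf e n L r' ≤ Gf e n L r) {θ : ℝ} (hθ : θ * e ≤ e - n) : HC θ (fun x y => r (x, y)) := by
  intro Ω α _ _ P w Z hP h1 hZ
  have hZ' : mar P Z = r := by
    rw [hZ]
  have hle : ∑ a, mar P w a * Gf e n L (cnd P w Z a) ≤ Gf e n L r := by
    calc ∑ a, mar P w a * Gf e n L (cnd P w Z a) ≤ ∑ a, mar P w a * Gf e n L r := by
          refine Finset.sum_le_sum fun a _ => ?_
          have ha := mar_nonneg hP w a
          rcases ha.eq_or_lt with h0 | h0
          · rw [← h0, zero_mul, zero_mul]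
          refine mul_le_mul_of_nonneg_left (hmax _ ?_ ?_ ?_) ha
          · intro p
            exact div_nonneg (mar_nonneg hP _ _) ha
          · unfold cnd
            rw [← Finset.sum_div, mar_fst P w Z a, div_self h0.ne']
          · intro p hp
            unfold cnd
            rw [mar_pair_zero' hP w Z (by rw [hZ']; exact hp) a, zero_div]
      _ = Gf e n L r := by
          rw [← Finset.sum_mul, mar_total, h1, one_mul]
  have hexp : ∑ a, mar P w a * Gf e n L (cnd P w Z a) =
      e * (ent P (fun ω => (w ω, Z ω)) - ent P w) - (e - n) *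
        ((ent P (fun ω => (w ω, (Z ω).1)) - ent P w) +
        (ent P (fun ω => (w ω, (Z ω).2)) - ent P w)) + ∑ p, r p * L p := by
    rw [← sum_cnd_ent hP w Z (fun p => p), ← sum_cnd_ent hP w Z (fun p => p.1),
      ← sum_cnd_ent hP w Z (fun p => p.2), ← hZ', ← sum_cnd_lin hP w Z L]
    unfold Gf
    rw [Finset.mul_sum, ← Finset.sum_add_distrib, Finset.mul_sum, ← Finset.sum_sub_distrib,
      ← Finset.sum_add_distrib]
    refine Finset.sum_congr rfl fun a _ => ?_
    ring
  have e1 : ent r (fun p => p) = ent P Z := by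
    rw [← hZ', ent_mar]
  have e2 : ent r (fun p => p.1) = ent P (fun ω => (Z ω).1) := by
    rw [← hZ', ent_mar]
  have e3 : ent r (fun p => p.2) = ent P (fun ω => (Z ω).2) := by
    rw [← hZ', ent_mar]
  rw [hexp] at hle
  unfold Gf at hle
  rw [e1, e2, e3] at hle
  have m1 := mi_nonneg hP h1 w (fun ω => (Z ω).1)
  have m2 := mi_nonneg hP h1 w (fun ω => (Z ω).2)
  have key : (e - n) * (mi P w (fun ω => (Z ω).1) + mi P w (fun ω => (Z ω).2)) ≤
      e * mi P w Z := by
    unfold mi
    linarith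
  have h3 : θ * e * (mi P w (fun ω => (Z ω).1) + mi P w (fun ω => (Z ω).2)) ≤ e * mi P w Z :=
    (mul_le_mul_of_nonneg_right hθ (add_nonneg m1 m2)).trans key
  have h4 : e * (θ * (mi P w (fun ω => (Z ω).1) + mi P w (fun ω => (Z ω).2))) ≤ e * mi P w Z := by
    linarith
  exact le_of_mul_le_mul_left h4 he

end max

end Vale.Agent.P050.H398
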