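import Vale.Agent.P050.H398.Reduce

/-!
Cartesian products with a graph whose prism laws satisfy the single weighted bound.
-/

set_option linter.unusedSectionVars false

namespace Vale.Agent.P050.H398

open Finset Vale.Agent.P050.Cart Vale.Agent.P050.Lev

/-- `L` is the joint law of two random maps which form a random map from the prism `K₂ □ H`, and
each edge has the law `π`. -/
structure Core {V U : Type} [Fintype V] [DecidableEq V] [Fintype U] (E : Finset (V × V))
    (s : V → Bool) (π : U → U → ℝ) (L : (V → U) → (V → U) → ℝ) : Prop where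
  nonneg : ∀ f g, 0 ≤ L f g
  total : ∑ f, ∑ g, L f g = 1
  rung_false : ∀ v, s v = false → ∀ F : U → U → ℝ,
    ∑ f, ∑ g, L f g * F (f v) (g v) = ∑ x, ∑ y, π x y * F x y
  rung_true : ∀ v, s v = true → ∀ F : U → U → ℝ,
    ∑ f, ∑ g, L f g * F (g v) (f v) = ∑ x, ∑ y, π x y * F x y
  edge_fst : ∀ e ∈ E, ∀ F : U → U → ℝ,
    ∑ f, ∑ g, L f g * F (f e.1) (f e.2) = ∑ x, ∑ y, π x y * F x y
  edge_snd : ∀ e ∈ E, ∀ F : U → U → ℝ,
    ∑ f, ∑ g, L f g * F (g e.2) (g e.1) = ∑ x, ∑ y, π x y * F x y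

section basics

variable {V U : Type} [Fintype V] [DecidableEq V] [Fintype U] {E : Finset (V × V)} {s : V → Bool}
  {m : Bool → U → ℝ} {π : U → U → ℝ} {L : (V → U) → (V → U) → ℝ}

theorem Core.vertex_fst (h : Core E s π L) (h1 : ∀ x, ∑ y, π x y = m false x)
    (h2 : ∀ y, ∑ x, π x y = m true y) (v : V) (F : U → ℝ) :
    ∑ f, fstLaw L f * F (f v) = ∑ x, m (s v) x * F x := by
  rw [sum_fstLaw fun f => F (f v)]
  cases hv : s v
  · rw [h.rung_false v hv fun x _ => F x]
    simp_rw [← Finset.sum_mul, h1]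
  · rw [h.rung_true v hv fun _ y => F y, Finset.sum_comm]
    simp_rw [← Finset.sum_mul, h2]

theorem Core.vertex_snd (h : Core E s π L) (h1 : ∀ x, ∑ y, π x y = m false x)
    (h2 : ∀ y, ∑ x, π x y = m true y) (v : V) (F : U → ℝ) :
    ∑ g, sndLaw L g * F (g v) = ∑ x, m (!s v) x * F x := by
  rw [sum_sndLaw fun g => F (g v)]
  cases hv : s v
  · rw [h.rung_false v hv fun _ y => F y, Finset.sum_comm]
    simp_rw [← Finset.sum_mul, h2]
    rfl
  · rw [h.rung_true v hv fun x _ => F x]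
    simp_rw [← Finset.sum_mul, h1]
    rfl

theorem Core.vertex_sup (h : Core E s π L) (h1 : ∀ x, ∑ y, π x y = m false x)
    (h2 : ∀ y, ∑ x, π x y = m true y) (b : Bool) (w : V) (F : U → ℝ) :
    ∑ x, supLaw L b x * F (x w) = ∑ x, m (xor b (s w)) x * F x := by
  cases b
  · simp only [Bool.false_bne]
    exact h.vertex_fst h1 h2 w F
  · simp only [Bool.true_bne]
    exact h.vertex_snd h1 h2 w F

end basics

section transfer

variable {V₁ V₂ U : Type} [Fintype V₁] [DecidableEq V₁] [Fintype V₂] [DecidableEq V₂] [Fintype U]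
  {E₁ : Finset (V₁ × V₁)} {s₁ : V₁ → Bool} {E₂ : Finset (V₂ × V₂)} {s₂ : V₂ → Bool}
  {m : Bool → U → ℝ} {π : U → U → ℝ} {L : (V₂ → U) → (V₂ → U) → ℝ}

theorem Core.transfer (h : Core E₂ s₂ π L) (Ex : ((V₁ → V₂ → U) → ℝ) → ℝ)
    (hv : ∀ v, ∀ F : (V₂ → U) → ℝ, Ex (fun Z => F (Z v)) = ∑ x, supLaw L (s₁ v) x * F x)
    (he : ∀ e ∈ E₁, ∀ F : (V₂ → U) → (V₂ → U) → ℝ,
      Ex (fun Z => F (Z e.1) (Z e.2)) = ∑ x, ∑ y, L x y * F x y)
    {e : (V₁ × V₂) × (V₁ × V₂)} (hmem : e ∈ prodEdges E₁ s₁ E₂ s₂) (F : U → U → ℝ) :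
    Ex (fun Z => F (Z e.1.1 e.1.2) (Z e.2.1 e.2.2)) = ∑ x, ∑ y, π x y * F x y := by
  rcases mem_prodEdges.1 hmem with ⟨a, ha, w, rfl⟩ | ⟨v, a, ha, rfl⟩
  · cases hw : s₂ w
    · simp only [if_true]
      rw [he a ha fun x y => F (x w) (y w)]
      exact h.rung_false w hw F
    · simp only [Bool.true_eq_false, if_false]
      rw [he a ha fun x y => F (y w) (x w)]
      exact h.rung_true w hw F
  · cases hs : s₁ v
    · simp only [if_true]
      rw [hv v fun x => F (x a.1) (x a.2), hs]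
      exact (sum_fstLaw fun x => F (x a.1) (x a.2)).trans (h.edge_fst a ha F)
    · simp only [Bool.true_eq_false, if_false]
      rw [hv v fun x => F (x a.2) (x a.1), hs]
      exact (sum_sndLaw fun x => F (x a.2) (x a.1)).trans (h.edge_snd a ha F)

end transfer

/-- `H` has good prism laws for all edge laws with the hypercontractive inequality. -/
def Good {V : Type} [Fintype V] [DecidableEq V] (E : Finset (V × V)) (s : V → Bool) : Prop :=
  (∀ e ∈ E, s e.1 = false ∧ s e.2 = true) ∧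
    ∀ (θ : ℝ), 0 ≤ θ → θ ≤ 1 → ∀ (U : Type) [Fintype U] (m : Bool → U → ℝ) (π : U → U → ℝ),
      Base m π → HC θ π → ∃ L : (V → U) → (V → U) → ℝ, Core E s π L ∧
        tc2 m s L - θ * (tc m s (fstLaw L) + tc m (fun v => !s v) (sndLaw L)) ≤
          (Fintype.card V + 2 * (1 - θ) * E.card) * Cart.inf m π

section main

variable {V₁ V₂ : Type} [Fintype V₁] [DecidableEq V₁] [Fintype V₂] [DecidableEq V₂]
  {E₁ : Finset (V₁ × V₁)} {s₁ : V₁ → Bool} {E₂ : Finset (V₂ × V₂)} {s₂ : V₂ → Bool}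

/-- the sides of the product have the same size -/
theorem prod_balanced {n : ℕ} (hn : ∀ b, (univ.filter fun v => s₁ v = b).card = n) (b : Bool) :
    (univ.filter fun p : V₁ × V₂ => xor (s₁ p.1) (s₂ p.2) = b).card = n * Fintype.card V₂ := by
  classical
  have h1 : (univ.filter fun p : V₁ × V₂ => xor (s₁ p.1) (s₂ p.2) = b).card =
      ∑ w : V₂, (univ.filter fun v => s₁ v = xor b (s₂ w)).card := by
    rw [Finset.card_eq_sum_ones, Finset.sum_filter, Fintype.sum_prod_type, Finset.sum_comm]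
    refine Finset.sum_congr rfl fun w _ => ?_
    rw [Finset.card_eq_sum_ones, Finset.sum_filter]
    refine Finset.sum_congr rfl fun v _ => ?_
    refine if_congr ?_ rfl rfl
    cases s₁ v <;> cases s₂ w <;> cases b <;> simp
  rw [h1, Finset.sum_congr rfl fun w _ => hn (xor b (s₂ w)), Finset.sum_const, Finset.card_univ,
    smul_eq_mul, mul_comm]

/-- **The Cartesian product.** -/
theorem KSid.cart_good (h1 : KSid E₁ s₁) {n : ℕ}
    (hn : ∀ b, (univ.filter fun v => s₁ v = b).card = n) (hnE : n ≤ E₁.card) (hE0 : 0 < E₁.card)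
    [Nonempty V₂] (h2 : Good E₂ s₂) :
    KSid (prodEdges E₁ s₁ E₂ s₂) (fun p => xor (s₁ p.1) (s₂ p.2)) := by
  have hV : (0 : ℝ) < Fintype.card V₂ := by exact_mod_cast Fintype.card_pos
  have hE : (0 : ℝ) < E₁.card := by exact_mod_cast hE0
  have hnE' : (n : ℝ) ≤ E₁.card := by exact_mod_cast hnE
  have hn0 : (0 : ℝ) ≤ n := by positivity
  have hE2 : (0 : ℝ) ≤ E₂.card := by positivity
  have hcV : (Fintype.card V₁ : ℝ) = 2 * n := by
    rw [card_side s₁, hn, hn]
    ring
  have hcE : (((prodEdges E₁ s₁ E₂ s₂).card : ℕ) : ℝ) =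
      E₁.card * Fintype.card V₂ + 2 * n * E₂.card := by
    rw [card_prodEdges h2.1]
    push_cast
    rw [hcV]
  have hcV' : Fintype.card V₁ = 2 * n := by exact_mod_cast hcV
  set θ : ℝ := 1 - n / E₁.card with hθ
  have hθ0 : 0 ≤ θ := by
    rw [hθ, sub_nonneg, div_le_one hE]
    exact hnE'
  have hθ1 : θ ≤ 1 := by
    rw [hθ]
    have : 0 ≤ (n : ℝ) / E₁.card := by positivity
    linarith
  have hθE : (1 - θ) * E₁.card = n := by
    rw [hθ]
    field_simp
    ring
  refine ksid_of_hc (prodEdges_side h1.1 h2.1) (prod_balanced hn) ?_ ?_ (θ := θ) ?_ ?_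
  · rw [card_prodEdges h2.1, hcV']
    have := Nat.mul_le_mul_right (Fintype.card V₂) hnE
    omega
  · rw [card_prodEdges h2.1]
    have : 0 < Fintype.card V₂ := Fintype.card_pos
    positivity
  · rw [hcE]
    push_cast
    have e1 : θ * (E₁.card * Fintype.card V₂ + 2 * n * E₂.card) =
        (E₁.card - n) * Fintype.card V₂ + θ * (2 * n * E₂.card) := by
      have : θ * E₁.card = E₁.card - n := by linarith
      rw [mul_add, ← mul_assoc, this]
    rw [e1]
    have := mul_le_mul_of_nonneg_right hθ1 (by positivity : 0 ≤ 2 * (n : ℝ) * E₂.card)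
    linarith
  · intro U _ c π hB hHC
    obtain ⟨L, hL, hbound⟩ := h2.2 θ hθ0 hθ1 U c π hB hHC
    obtain ⟨ν, hν⟩ := KSid.sidLaw h1 (c := supLaw L) (π := L) (supLaw_nonneg hL.nonneg)
      (supLaw_total hL.total) hL.nonneg (fun _ => rfl) (fun _ => rfl)
    refine ⟨unc ν, fun z => hν.nonneg _, ?_, ?_, ?_, ?_⟩
    · exact (sum_unc ν).trans hν.total
    · rintro ⟨v, w⟩ f
      refine (sum_unc fun Z => ν Z * f (Z v w)).trans ?_
      rw [hν.vertex v fun x => f (x w)]
      exact hL.vertex_sup hB.row hB.col (s₁ v) w f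
    · intro e he f
      refine (sum_unc fun Z => ν Z * f (Z e.1.1 e.1.2) (Z e.2.1 e.2.2)).trans ?_
      exact hL.transfer (fun G => ∑ Z, ν Z * G Z) hν.vertex hν.edge he f
    · rw [tc_unc c s₂ (supLaw L) s₁ ν hν.vertex, sum_side s₁ (innerTc c s₂ (supLaw L)),
        innerTc_false, innerTc_true, hn, hn, hcE]
      have hb := hν.bound
      rw [inf_supLaw c s₂ L] at hb
      have k := mul_le_mul_of_nonneg_left hbound hE.le
      have e2 : (E₁.card : ℝ) * ((Fintype.card V₂ + 2 * (1 - θ) * E₂.card) * Cart.inf c π) =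
          (E₁.card * Fintype.card V₂ + 2 * ((1 - θ) * E₁.card) * E₂.card) * Cart.inf c π := by
        ring
      rw [e2, hθE] at k
      have e3 : (E₁.card : ℝ) * (tc2 c s₂ L -
          θ * (tc c s₂ (fstLaw L) + tc c (fun v => !s₂ v) (sndLaw L))) =
          E₁.card * (tc2 c s₂ L - tc c s₂ (fstLaw L) - tc c (fun v => !s₂ v) (sndLaw L)) +
          ((1 - θ) * E₁.card) * (tc c s₂ (fstLaw L) + tc c (fun v => !s₂ v) (sndLaw L)) := by
        ring
      rw [e3, hθE] at k
      linarith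

end main

end Vale.Agent.P050.H398
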