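import Vale.Agent.P050.H398.Core
import Vale.Agent.P050.Lev.Final

/-!
The bipartite double cover: from symmetric kernels to the two-sided inequality, and back.
-/

set_option linter.unusedSectionVars false

namespace Vale.Agent.P050.H398

open Finset Vale.Agent.P050.Cart Vale.Agent.P050.Lev

/-- the bipartite double cover -/
def cover {V : Type} (G : SimpleGraph V) : SimpleGraph (V × Bool) where
  Adj p q := G.Adj p.1 q.1 ∧ p.2 ≠ q.2
  symm := ⟨fun _ _ h => ⟨h.1.symm, h.2.symm⟩⟩
  loopless := ⟨fun _ h => h.2 rfl⟩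

/-- the Sidorenko inequality for symmetric kernels on finite weighted sets -/
def WSid {V : Type} [Fintype V] [DecidableEq V] (E : Finset (V × V)) : Prop :=
  ∀ (U : Type) [Fintype U] (m : U → ℝ) (W : U → U → ℝ), (∀ x, 0 ≤ m x) → ∑ x, m x = 1 →
    (∀ x y, 0 ≤ W x y) → (∀ x y, W x y = W y x) →
      (∑ x, ∑ y, m x * m y * W x y) ^ E.card ≤
        ∑ z : V → U, (∏ v, m (z v)) * ∏ e ∈ E, W (z e.1) (z e.2)

variable {V : Type} [Fintype V] [DecidableEq V] {G : SimpleGraph V} {s : V → Bool}

theorem mem_sideEdges {e : V × V} :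
    e ∈ sideEdges G s ↔ G.Adj e.1 e.2 ∧ s e.1 = false ∧ s e.2 = true := by
  simp [sideEdges]

theorem sideEdges_cover (hs : ∀ u v, G.Adj u v → s u ≠ s v) :
    sideEdges (cover G) Prod.snd =
      ((sideEdges G s).image fun e => ((e.1, false), (e.2, true))) ∪
        (sideEdges G s).image fun e => ((e.2, false), (e.1, true)) := by
  ext ⟨⟨u, a⟩, ⟨v, b⟩⟩
  rw [mem_union, mem_image, mem_image, mem_sideEdges]
  constructor
  · rintro ⟨⟨h, -⟩, ha, hb⟩
    simp only at h ha hb
    have h1 := hs u v h
    cases hu : s u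
    · cases hv : s v
      · exact absurd (hu.trans hv.symm) h1
      · exact Or.inl ⟨(u, v), mem_sideEdges.2 ⟨h, hu, hv⟩, by rw [ha, hb]⟩
    · cases hv : s v
      · exact Or.inr ⟨(v, u), mem_sideEdges.2 ⟨h.symm, hv, hu⟩, by rw [ha, hb]⟩
      · exact absurd (hu.trans hv.symm) h1
  · rintro (⟨⟨x, y⟩, h, he⟩ | ⟨⟨x, y⟩, h, he⟩)
    · have h1 := (mem_sideEdges.1 h).1
      simp only [Prod.mk.injEq] at he
      obtain ⟨⟨rfl, rfl⟩, rfl, rfl⟩ := he
      exact ⟨⟨h1, by simp⟩, rfl, rfl⟩
    · have h1 := (mem_sideEdges.1 h).1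
      simp only [Prod.mk.injEq] at he
      obtain ⟨⟨rfl, rfl⟩, rfl, rfl⟩ := he
      exact ⟨⟨h1.symm, by simp⟩, rfl, rfl⟩

theorem cover_disjoint :
    Disjoint ((sideEdges G s).image fun e => ((e.1, false), (e.2, true)))
        ((sideEdges G s).image fun e => ((e.2, false), (e.1, true))) := by
  rw [Finset.disjoint_left]
  intro e he he'
  obtain ⟨x, hx, rfl⟩ := mem_image.1 he
  obtain ⟨y, hy, h⟩ := mem_image.1 he'
  simp only [Prod.mk.injEq, and_true] at h
  have h1 := (mem_sideEdges.1 hx).2.1
  have h2 := (mem_sideEdges.1 hy).2.2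
  rw [h.1, h1] at h2
  exact absurd h2 (by simp)

theorem cover_inj1 : Function.Injective
    (fun e : V × V => (((e.1, false), (e.2, true)) : (V × Bool) × (V × Bool))) := by
  rintro ⟨a, b⟩ ⟨c, d⟩ h
  simp only [Prod.mk.injEq, and_true] at h
  exact Prod.ext h.1 h.2

theorem cover_inj2 : Function.Injective
    (fun e : V × V => (((e.2, false), (e.1, true)) : (V × Bool) × (V × Bool))) := by
  rintro ⟨a, b⟩ ⟨c, d⟩ h
  simp only [Prod.mk.injEq, and_true] at h
  exact Prod.ext h.2 h.1

theorem card_cover (hs : ∀ u v, G.Adj u v → s u ≠ s v) :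
    (sideEdges (cover G) Prod.snd).card = 2 * (sideEdges G s).card := by
  rw [sideEdges_cover hs, Finset.card_union_of_disjoint cover_disjoint,
    Finset.card_image_of_injective _ cover_inj1, Finset.card_image_of_injective _ cover_inj2]
  ring

theorem prod_cover (hs : ∀ u v, G.Adj u v → s u ≠ s v) (F : (V × Bool) × (V × Bool) → ℝ) :
    ∏ e ∈ sideEdges (cover G) Prod.snd, F e =
      (∏ e ∈ sideEdges G s, F ((e.1, false), (e.2, true))) *
        ∏ e ∈ sideEdges G s, F ((e.2, false), (e.1, true)) := by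
  rw [sideEdges_cover hs, Finset.prod_union cover_disjoint,
    Finset.prod_image fun a _ b _ h => cover_inj1 h, Finset.prod_image fun a _ b _ h => cover_inj2 h]

/-- a map on the double cover as a pair of maps -/
def coverEquiv (V U : Type) : (V × Bool → U) ≃ (V → U × U) where
  toFun Z v := (Z (v, false), Z (v, true))
  invFun z p := if p.2 = false then (z p.1).1 else (z p.1).2
  left_inv Z := by
    funext ⟨v, b⟩
    cases b <;> simp
  right_inv z := by
    funext v
    simp

/-- **From symmetric kernels to the double cover.** -/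
theorem ksid_cover (hs : ∀ u v, G.Adj u v → s u ≠ s v) (h : WSid (sideEdges G s)) :
    KSid (sideEdges (cover G) Prod.snd) Prod.snd := by
  refine ⟨fun e he => (mem_sideEdges.1 he).2, ?_⟩
  intro U _ m W hm hm1 hW
  have key := h (U × U) (fun p => m false p.1 * m true p.2) (fun p q => W p.1 q.2 * W q.1 p.2)
    (fun p => mul_nonneg (hm _ _) (hm _ _)) ?_ (fun p q => mul_nonneg (hW _ _) (hW _ _))
    (fun p q => mul_comm _ _)
  · have e1 : ∑ p : U × U, ∑ q : U × U, m false p.1 * m true p.2 * (m false q.1 * m true q.2) *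
        (W p.1 q.2 * W q.1 p.2) = (∑ x, ∑ y, m false x * m true y * W x y) ^ 2 := by
      rw [sq, ← Fintype.sum_prod_type' (f := fun x y : U => m false x * m true y * W x y),
        Fintype.sum_mul_sum, ← Fintype.sum_prod_type' (f := fun p q : U × U =>
          m false p.1 * m true p.2 * (m false q.1 * m true q.2) * (W p.1 q.2 * W q.1 p.2)),
        ← Fintype.sum_prod_type' (f := fun p q : U × U =>
          m false p.1 * m true p.2 * W p.1 p.2 * (m false q.1 * m true q.2 * W q.1 q.2))]
      refine Fintype.sum_equiv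
        { toFun := fun r : (U × U) × (U × U) => ((r.1.1, r.2.2), (r.2.1, r.1.2))
          invFun := fun r => ((r.1.1, r.2.2), (r.2.1, r.1.2))
          left_inv := fun r => rfl
          right_inv := fun r => rfl } _ _ fun r => ?_
      simp only [Equiv.coe_fn_mk]
      ring
    rw [e1, ← pow_mul] at key
    rw [card_cover hs]
    refine key.trans (le_of_eq ?_)
    rw [← Equiv.sum_comp (coverEquiv V U)]
    refine Finset.sum_congr rfl fun Z _ => ?_
    rw [prod_cover hs fun e => W (Z e.1) (Z e.2), Fintype.prod_prod_type]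
    simp only [coverEquiv, Equiv.coe_fn_mk, Fintype.prod_bool, Finset.prod_mul_distrib]
    ring
  · rw [Fintype.sum_prod_type, ← Fintype.sum_mul_sum (f := m false) (g := m true), hm1, hm1, one_mul]

theorem cover_balanced (b : Bool) :
    (univ.filter fun p : V × Bool => p.2 = b).card = Fintype.card V := by
  rw [← Finset.card_univ, ← Finset.card_image_of_injective (univ : Finset V)
    (f := fun v => (v, b)) (fun x y h => (Prod.mk.inj h).1)]
  congr 1
  ext ⟨v, c⟩
  simp [eq_comm]

end Vale.Agent.P050.H398
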