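import Vale.Agent.P050.H398.Cond

/-!
Extensions of a probability space by a kernel, and the entropies of families.
-/

set_option linter.unusedSectionVars false

namespace Vale.Agent.P050.H398

open Finset Vale.Agent.P050.Cart

section ext

variable {Ω α β γ δ : Type} [Fintype Ω] [Fintype α] [Fintype β] [Fintype γ] [Fintype δ]

/-- the extension of `P` by the kernel `κ` from the values of `Y` -/
def ext (P : Ω → ℝ) (Y : Ω → α) (κ : α → γ → ℝ) (p : Ω × γ) : ℝ := P p.1 * κ (Y p.1) p.2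

theorem ext_nonneg {P : Ω → ℝ} (hP : ∀ ω, 0 ≤ P ω) (Y : Ω → α) {κ : α → γ → ℝ}
    (hκ : ∀ a c, 0 ≤ κ a c) (p : Ω × γ) : 0 ≤ ext P Y κ p := mul_nonneg (hP _) (hκ _ _)

theorem mar_ext (P : Ω → ℝ) (Y : Ω → α) (κ : α → γ → ℝ) (X : Ω → β) (F : γ → δ) (b : β → α)
    (hb : ∀ ω, b (X ω) = Y ω) (c : δ) (x : β) :
    mar (ext P Y κ) (fun p => (F p.2, X p.1)) (c, x) = mar (κ (b x)) F c * mar P X x := by
  classical
  unfold mar ext
  rw [Fintype.sum_prod_type, Finset.mul_sum]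
  refine Finset.sum_congr rfl fun ω _ => ?_
  by_cases hx : X ω = x
  · rw [if_pos hx, Finset.sum_mul]
    refine Finset.sum_congr rfl fun g _ => ?_
    have hY : Y ω = b x := by rw [← hx, hb]
    by_cases hg : F g = c
    · rw [if_pos hg, if_pos (Prod.ext hg hx), hY]
      ring
    · rw [if_neg hg, if_neg (fun h => hg (Prod.mk.inj h).1), zero_mul]
  · rw [if_neg hx, mul_zero]
    refine Finset.sum_eq_zero fun g _ => ?_
    rw [if_neg (fun h => hx (Prod.mk.inj h).2)]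

theorem mar_ext_fst {P : Ω → ℝ} (hP : ∀ ω, 0 ≤ P ω) {Y : Ω → α} {κ : α → γ → ℝ}
    (h1 : ∀ a, mar P Y a ≠ 0 → ∑ c, κ a c = 1) (X : Ω → β) :
    mar (ext P Y κ) (fun p => X p.1) = mar P X := by
  classical
  funext x
  unfold mar ext
  rw [Fintype.sum_prod_type]
  refine Finset.sum_congr rfl fun ω _ => ?_
  by_cases hx : X ω = x
  · simp only [hx, if_true]
    rw [← Finset.mul_sum]
    by_cases h0 : P ω = 0
    · rw [h0, zero_mul]
    · rw [h1 _ (mar_ne_zero hP Y h0), mul_one]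
  · simp [hx]

theorem ent_ext_fst {P : Ω → ℝ} (hP : ∀ ω, 0 ≤ P ω) {Y : Ω → α} {κ : α → γ → ℝ}
    (h1 : ∀ a, mar P Y a ≠ 0 → ∑ c, κ a c = 1) (X : Ω → β) :
    ent (ext P Y κ) (fun p => X p.1) = ent P X :=
  ent_law fun a => by rw [mar_ext_fst hP h1 X]

theorem ext_total {P : Ω → ℝ} (hP : ∀ ω, 0 ≤ P ω) (hP1 : ∑ ω, P ω = 1) {Y : Ω → α} {κ : α → γ → ℝ}
    (h1 : ∀ a, mar P Y a ≠ 0 → ∑ c, κ a c = 1) : ∑ p, ext P Y κ p = 1 := by
  rw [← mar_total (ext P Y κ) (fun p => Y p.1), mar_ext_fst hP h1 Y, mar_total, hP1]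

/-- the new variable only depends on `Y` -/
theorem ent_ext {P : Ω → ℝ} (hP : ∀ ω, 0 ≤ P ω) {Y : Ω → α} {κ : α → γ → ℝ}
    (hκ : ∀ a c, 0 ≤ κ a c) (h1 : ∀ a, mar P Y a ≠ 0 → ∑ c, κ a c = 1) (X : Ω → β) (F : γ → δ)
    (b : β → α) (hb : ∀ ω, b (X ω) = Y ω) :
    ent (ext P Y κ) (fun p => (F p.2, X p.1)) + ent P Y =
      ent (ext P Y κ) (fun p => (F p.2, Y p.1)) + ent P X := by
  have e := ent_kernel (P := ext P Y κ) (ext_nonneg hP Y hκ) (fun p => F p.2)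
    (fun p => X p.1) b (fun a d => mar (κ a) F d) (fun c x => by
      rw [mar_ext P Y κ X F b hb c x, mar_ext_fst hP h1 X])
  simp only [hb] at e
  rw [ent_ext_fst hP h1 X, ent_ext_fst hP h1 Y] at e
  exact e

end ext

section family

variable {Ω γ V A B : Type} [Fintype Ω] [Fintype γ] [DecidableEq V] [Fintype A] [Fintype B]

/-- the new family -/
def newZ (S : Finset V) (Z : V → Ω → A) (G : V → γ → A) (v : V) (p : Ω × γ) : A :=
  if v ∈ S then Z v p.1 else G v p.2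

variable {S N : Finset V} {P : Ω → ℝ} {Z : V → Ω → A} {G : V → γ → A}
  {κ : ({v // v ∈ N} → A) → γ → ℝ}

theorem newZ_of_mem {v : V} (hv : v ∈ S) : newZ S Z G v = fun p => Z v p.1 := by
  funext p
  unfold newZ
  rw [if_pos hv]

theorem newZ_of_notMem {v : V} (hv : v ∉ S) : newZ S Z G v = fun p => G v p.2 := by
  funext p
  unfold newZ
  rw [if_neg hv]

theorem eQ_new_old (hP : ∀ ω, 0 ≤ P ω) (h1 : ∀ a, mar P (fam Z N) a ≠ 0 → ∑ c, κ a c = 1)
    (pr : A → B) {Q : Finset V} (hQ : Q ⊆ S) :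
    eQ (ext P (fam Z N) κ) (fun v p => pr (newZ S Z G v p)) Q = eQ P (fun v ω => pr (Z v ω)) Q := by
  rw [show eQ P (fun v ω => pr (Z v ω)) Q = ent P (fam (fun v ω => pr (Z v ω)) Q) from rfl,
    ← ent_ext_fst hP h1 (fam (fun v ω => pr (Z v ω)) Q)]
  unfold eQ
  refine ent_fib fun p p' => ?_
  rw [fam_eq_iff, fam_eq_iff]
  constructor
  · intro h v hv
    have := h v hv
    rw [newZ_of_mem (hQ hv)] at this
    exact this
  · intro h v hv
    rw [newZ_of_mem (hQ hv)]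
    exact h v hv

/-- splitting a family in its old and its new part -/
theorem eQ_new_split (P' : Ω × γ → ℝ) (pr : A → B) {Q R : Finset V} (hQ : Q ⊆ S)
    (hR : ∀ v ∈ R, v ∉ S) :
    eQ P' (fun v p => pr (newZ S Z G v p)) (Q ∪ R) =
      ent P' (fun p => (fam (fun v c => pr (G v c)) R p.2, fam (fun v ω => pr (Z v ω)) Q p.1)) := by
  unfold eQ
  refine ent_fib fun p p' => ?_
  rw [fam_eq_iff, Prod.ext_iff, fam_eq_iff, fam_eq_iff]
  constructor
  · intro h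
    refine ⟨fun v hv => ?_, fun v hv => ?_⟩
    · have := h v (mem_union_right _ hv)
      rw [newZ_of_notMem (hR v hv)] at this
      exact this
    · have := h v (mem_union_left _ hv)
      rw [newZ_of_mem (hQ hv)] at this
      exact this
  · rintro ⟨h1, h2⟩ v hv
    rcases mem_union.1 hv with hv | hv
    · rw [newZ_of_mem (hQ hv)]
      exact h2 v hv
    · rw [newZ_of_notMem (hR v hv)]
      exact h1 v hv

theorem eQ_new_eq (hP : ∀ ω, 0 ≤ P ω) (hκ : ∀ a c, 0 ≤ κ a c)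
    (h1 : ∀ a, mar P (fam Z N) a ≠ 0 → ∑ c, κ a c = 1) {Q R : Finset V} (hNQ : N ⊆ Q)
    (hQ : Q ⊆ S) (hR : ∀ v ∈ R, v ∉ S) :
    eQ (ext P (fam Z N) κ) (newZ S Z G) (Q ∪ R) + eQ P Z N =
      eQ (ext P (fam Z N) κ) (newZ S Z G) (N ∪ R) + eQ P Z Q := by
  have e1 := eQ_new_split (Z := Z) (G := G) (ext P (fam Z N) κ) (fun a => a) hQ hR
  have e2 := eQ_new_split (Z := Z) (G := G) (ext P (fam Z N) κ) (fun a => a) (hNQ.trans hQ) hR
  have e3 := ent_ext hP hκ h1 (fam Z Q) (fam G R) (fun f v => f ⟨v.1, hNQ v.2⟩) (fun ω => rfl)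
  exact (congrArg (· + eQ P Z N) e1).trans (e3.trans (congrArg (· + eQ P Z Q) e2.symm))

theorem eQ_new_le (hP : ∀ ω, 0 ≤ P ω) (hκ : ∀ a c, 0 ≤ κ a c)
    (h1 : ∀ a, mar P (fam Z N) a ≠ 0 → ∑ c, κ a c = 1) (pr : A → B) {Q R : Finset V}
    (hNQ : N ⊆ Q) (hQ : Q ⊆ S) (hR : ∀ v ∈ R, v ∉ S) :
    eQ (ext P (fam Z N) κ) (fun v p => pr (newZ S Z G v p)) (Q ∪ R) +
        eQ P (fun v ω => pr (Z v ω)) N ≤
      eQ (ext P (fam Z N) κ) (fun v p => pr (newZ S Z G v p)) (N ∪ R) +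
        eQ P (fun v ω => pr (Z v ω)) Q := by
  set P' := ext P (fam Z N) κ with hP'
  set z : V → Ω × γ → B := fun v p => pr (newZ S Z G v p) with hz
  have hP0 : ∀ p, 0 ≤ P' p := ext_nonneg hP _ hκ
  rw [← eQ_new_old (κ := κ) (G := G) hP h1 pr (hNQ.trans hQ),
    ← eQ_new_old (κ := κ) (G := G) hP h1 pr hQ]
  have h := ent_submod hP0 (fam z R) (fam z Q) (fam z N)
  have e1 : ent P' (fun ω => (fam z R ω, fam z Q ω, fam z N ω)) = eQ P' z (Q ∪ R) := by
    unfold eQ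
    refine ent_fib fun p p' => ?_
    rw [Prod.ext_iff, Prod.ext_iff, fam_eq_iff, fam_eq_iff, fam_eq_iff, fam_eq_iff]
    simp only [mem_union]
    constructor
    · rintro ⟨h1, h2, -⟩ v (hv | hv)
      · exact h2 v hv
      · exact h1 v hv
    · intro h
      exact ⟨fun v hv => h v (Or.inr hv), fun v hv => h v (Or.inl hv),
        fun v hv => h v (Or.inl (hNQ hv))⟩
  have e2 : ent P' (fun ω => (fam z R ω, fam z N ω)) = eQ P' z (N ∪ R) := by
    unfold eQ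
    refine ent_fib fun p p' => ?_
    rw [Prod.ext_iff, fam_eq_iff, fam_eq_iff, fam_eq_iff]
    simp only [mem_union]
    constructor
    · rintro ⟨h1, h2⟩ v (hv | hv)
      · exact h2 v hv
      · exact h1 v hv
    · intro h
      exact ⟨fun v hv => h v (Or.inr hv), fun v hv => h v (Or.inl hv)⟩
  have e3 : ent P' (fun ω => (fam z Q ω, fam z N ω)) = eQ P' z Q := by
    unfold eQ
    refine ent_fib fun p p' => ?_
    rw [Prod.ext_iff, fam_eq_iff, fam_eq_iff]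
    constructor
    · rintro ⟨h2, -⟩ v hv
      exact h2 v hv
    · intro h
      exact ⟨h, fun v hv => h v (hNQ hv)⟩
  rw [e1, e2, e3] at h
  exact h

end family

end Vale.Agent.P050.H398
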