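import Vale.Agent.P050.H398.Arr

/-!
Tree-arrangeable graphs, graphs with a dominating vertex, complete bipartite graphs.
-/

set_option linter.unusedSectionVars false

namespace Vale.Agent.P050.H398

open Finset

section walks

variable {α : Type} {T : SimpleGraph α}

theorem avoid_walk (hT : T.Connected) {r a x : α} (hxa : x ≠ a)
    (hd : T.dist x r ≤ T.dist a r) : ∃ w : T.Walk x r, a ∉ w.support := by
  classical
  obtain ⟨w, hw⟩ := hT.exists_walk_length_eq_dist x r
  refine ⟨w, fun ha => ?_⟩
  have h1 := congrArg SimpleGraph.Walk.length (w.take_spec ha)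
  rw [SimpleGraph.Walk.length_append, hw] at h1
  have h2 := SimpleGraph.dist_le (w.takeUntil a ha)
  have h3 := SimpleGraph.dist_le (w.dropUntil a ha)
  have h4 := hT.pos_dist_of_ne hxa
  omega

theorem path_through (hT : T.Connected) {r a a' p : α} (hap : T.Adj a p)
    (hp : T.dist p r < T.dist a r) (ha' : T.dist a' r ≤ T.dist a r) (hne : a' ≠ a) :
    ∃ q : T.Walk a' a, q.IsPath ∧ p ∈ q.support := by
  classical
  obtain ⟨w₁, h₁⟩ := avoid_walk hT hne ha'
  obtain ⟨w₂, h₂⟩ := avoid_walk hT (x := p) (a := a) (r := r) hap.ne.symm hp.le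
  set w := w₁.append w₂.reverse with hw
  have haw : a ∉ w.support := by
    rw [hw, SimpleGraph.Walk.mem_support_append_iff, SimpleGraph.Walk.support_reverse,
      List.mem_reverse]
    rintro (h | h)
    · exact h₁ h
    · exact h₂ h
  have hab : a ∉ w.bypass.support := fun h => haw (w.support_bypass_subset_support h)
  refine ⟨w.bypass.concat hap.symm, (w.bypass_isPath).concat hab hap.symm, ?_⟩
  rw [SimpleGraph.Walk.support_concat]
  exact List.mem_append_left _ w.bypass.end_mem_support

theorem exists_parent (hT : T.Connected) {r a : α} (har : a ≠ r) :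
    ∃ p, T.Adj a p ∧ T.dist p r < T.dist a r := by
  obtain ⟨w, hw⟩ := hT.exists_walk_length_eq_dist a r
  cases w with
  | nil => exact absurd rfl har
  | cons h w' =>
    refine ⟨_, h, ?_⟩
    rw [← hw, SimpleGraph.Walk.length_cons]
    exact Nat.lt_succ_of_le (SimpleGraph.dist_le w')

end walks

variable {V : Type} [Fintype V] [DecidableEq V] {H : SimpleGraph V}

/-- **Tree-arrangeable graphs are cloned graphs.** -/
theorem isCloned_of_tree (h : TreeArrangeable H) : IsCloned H := by
  classical
  obtain ⟨A, T, hT, hbip, hpath⟩ := h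
  have hconn := hT.isConnected
  obtain ⟨r⟩ := hconn.nonempty
  have hpar : ∀ a : A, ∃ p : A, a ≠ r → T.Adj a p ∧ T.dist p r < T.dist a r := by
    intro a
    by_cases har : a = r
    · exact ⟨r, fun h => absurd har h⟩
    · obtain ⟨p, hp⟩ := exists_parent hconn har
      exact ⟨p, fun _ => hp⟩
  choose par hpar using hpar
  set s : V → Bool := fun v => !decide (v ∈ A) with hs
  have hsA : ∀ v, s v = false ↔ v ∈ A := fun v => by simp [hs]
  refine isCloned_rip (s := s) (r := r.1)
    (d := fun v => if hv : v ∈ A then T.dist ⟨v, hv⟩ r else 0)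
    (par := fun v => if hv : v ∈ A then (par ⟨v, hv⟩).1 else v) ?_ ((hsA _).2 r.2) ?_ ?_ ?_
  · intro u v huv huv'
    have h1 := hbip u v huv
    have h2 : (s u = false) ↔ (s v = false) := by rw [huv']
    rw [hsA, hsA] at h2
    tauto
  · intro a _
    simp only [Subtype.coe_eta, Subtype.coe_prop, dif_pos, SimpleGraph.dist_self]
    exact Nat.zero_le _
  · intro a ha har
    have haA := (hsA a).1 ha
    have h1 := hpar ⟨a, haA⟩ fun h => har (congrArg Subtype.val h)
    simp only [dif_pos haA]
    refine ⟨(hsA _).2 (par ⟨a, haA⟩).2, ?_⟩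
    rw [dif_pos (par ⟨a, haA⟩).2]
    exact h1.2
  · intro a a' b ha ha' har hne hd hab hab'
    have haA := (hsA a).1 ha
    have haA' := (hsA a').1 ha'
    have h1 := hpar ⟨a, haA⟩ fun h => har (congrArg Subtype.val h)
    simp only [dif_pos haA, dif_pos haA'] at hd ⊢
    obtain ⟨q, hq, hpq⟩ := path_through hconn h1.1 h1.2 hd
      (fun h => hne (congrArg Subtype.val h))
    exact hpath _ _ _ q hq hpq b hab' hab

/-- **Graphs with a vertex which is adjacent to all vertices of the opposite part.** -/
theorem isCloned_of_dominating {A : Set V} (hbip : ∀ u v, H.Adj u v → (u ∈ A ↔ v ∉ A)) {a : V}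
    (ha : a ∈ A) (hdom : ∀ b, b ∉ A → H.Adj a b) : IsCloned H := by
  classical
  set s : V → Bool := fun v => !decide (v ∈ A) with hs
  have hsA : ∀ v, s v = false ↔ v ∈ A := fun v => by simp [hs]
  refine isCloned_rip (s := s) (r := a) (d := fun v => if v = a then 0 else 1)
    (par := fun _ => a) ?_ ((hsA _).2 ha) ?_ ?_ ?_
  · intro u v huv huv'
    have h1 := hbip u v huv
    have h2 : (s u = false) ↔ (s v = false) := by rw [huv']
    rw [hsA, hsA] at h2
    tauto
  · intro x _
    simp
  · intro x hx hxa
    refine ⟨(hsA _).2 ha, ?_⟩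
    simp [hxa]
  · intro x x' b hx _ _ _ _ hxb _
    have h1 := (hsA x).1 hx
    exact hdom b ((hbip x b hxb).1 h1)

theorem isCloned_completeBipartite (m n : ℕ) :
    IsCloned (completeBipartiteGraph (Fin (m + 1)) (Fin n)) := by
  refine isCloned_of_dominating (A := {v | v.isLeft = true}) (a := Sum.inl 0) ?_ rfl ?_
  · rintro (u | u) (v | v) h <;> simp_all [completeBipartiteGraph]
  · rintro (u | u) h
    · exact absurd rfl h
    · simp [completeBipartiteGraph]

end Vale.Agent.P050.H398
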