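import Vale.Agent.P050.H398.Main
import Vale.Agent.P050.H398.Tree
import Vale.Agent.P050.Cart.Factor

/-!
The main theorems on Cartesian products.
-/

set_option linter.unusedSectionVars false

namespace Vale.Agent.P050.H398

open Finset Vale.Agent.P050.Cart Vale.Agent.P050.Lev

theorem exists_side {V : Type} {G : SimpleGraph V} (h : G.IsBipartite) :
    ∃ s : V → Bool, ∀ u v, G.Adj u v → s u ≠ s v := by
  obtain ⟨c⟩ := h
  refine ⟨fun v => decide (c v = 0), fun u v huv hc => ?_⟩
  have h1 := c.valid huv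
  have h2 : (c u = 0) ↔ (c v = 0) := by
    simpa using hc
  apply h1
  have hu := Fin.exists_fin_two.1 ⟨c u, rfl⟩
  have hv := Fin.exists_fin_two.1 ⟨c v, rfl⟩
  rcases hu with hu | hu
  · rw [hu, h2.1 hu]
  · rcases hv with hv | hv
    · rw [h2.2 hv, hv]
    · rw [hu, hv]

theorem isBipartite_of_side {V : Type} {G : SimpleGraph V} {s : V → Bool}
    (hs : ∀ u v, G.Adj u v → s u ≠ s v) : G.IsBipartite := by
  refine ⟨SimpleGraph.Coloring.mk (fun v => if s v = true then 1 else 0) ?_⟩
  intro u v huv h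
  have h1 := hs u v huv
  cases hu : s u <;> cases hv : s v <;> simp_all

theorem isSidorenko_of_isEmpty {V : Type} [IsEmpty V] (G : SimpleGraph V) : IsSidorenko G := by
  refine ⟨isBipartite_of_side (s := fun _ => true) fun u => isEmptyElim u, fun X _ _ Γ => ?_⟩
  have h1 : Nat.card G.edgeSet = 0 := by
    rw [Nat.card_eq_zero]
    left
    refine ⟨fun e => ?_⟩
    obtain ⟨e, he⟩ := e
    induction e using Sym2.inductionOn with
    | hf u v => exact isEmptyElim u
  have h2 : Nat.card (G →g Γ) = 1 := by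
    rw [Nat.card_eq_one_iff_unique]
    refine ⟨⟨fun f g => RelHom.ext fun v => isEmptyElim v⟩, ⟨⟨fun v => isEmptyElim v, fun {u} => isEmptyElim u⟩⟩⟩
  unfold homDensity
  rw [h1, h2]
  simp

section main

variable {V W : Type} [Fintype V] [Fintype W] [DecidableEq W] {G : SimpleGraph V}
  {H : SimpleGraph W}

theorem Cloned.nonempty {s : W → Bool} {S : Finset W} {T : Finset W → Prop}
    (h : Cloned H s S T) : S.Nonempty := by
  induction h with
  | vertex v => exact singleton_nonempty v
  | edge u v _ => exact insert_nonempty u _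
  | glue _ _ _ _ ih _ => exact ih.mono subset_union_left
  | clone _ _ _ _ _ _ _ _ _ _ _ _ _ ih => exact ih.mono subset_union_left

/-- **The product theorem.** -/
theorem box_cloned (hG : IsSidorenko G) (hdeg : Nat.card V ≤ 2 * Nat.card G.edgeSet)
    (hH : IsCloned H) : IsSidorenko (G □ H) := by
  classical
  obtain ⟨t, T, ht, hc⟩ := hH
  obtain ⟨s, hs⟩ := exists_side hG.1
  refine ⟨isBipartite_of_side (box_proper hs ht), fun X _ _ Γ => ?_⟩
  rcases isEmpty_or_nonempty V with hV | hV
  · exact (isSidorenko_of_isEmpty (G □ H)).2 X Γ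
  have : Nonempty W := by
    obtain ⟨w, _⟩ := Cloned.nonempty hc
    exact ⟨w⟩
  rw [Nat.card_eq_fintype_card, ← card_sideEdges G s hs] at hdeg
  have hVpos : 0 < Fintype.card V := Fintype.card_pos
  refine ordinary_of_cover hs ht ?_ Γ
  refine KSid.cart_good (ksid_cover hs (wsid_of_ordinary hs hG.2)) cover_balanced ?_ ?_
    (good_of_cloned ht hc)
  · rw [card_cover hs]
    exact hdeg
  · rw [card_cover hs]
    omega

theorem box_factor (hG : IsSidorenko G) (hiso : ∀ v, ∃ w, G.Adj v w) {t : W → Bool}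
    (hH : Factor H t) : IsSidorenko (G □ H) := by
  classical
  have ht := hH.fac.1
  obtain ⟨s, hs⟩ := exists_side hG.1
  refine ⟨isBipartite_of_side (box_proper hs ht), fun X _ _ Γ => ?_⟩
  refine ordinary_of_cover hs ht ?_ Γ
  refine KSid.cart (ksid_cover hs (wsid_of_ordinary hs hG.2)) ?_
    (hH.fac.2 inferInstance inferInstance)
  rintro ⟨v, b⟩
  obtain ⟨w, hvw⟩ := hiso v
  cases b
  · exact ⟨((v, false), (w, true)), mem_sideEdges.2 ⟨⟨hvw, by simp⟩, rfl, rfl⟩, Or.inl rfl⟩
  · exact ⟨((w, false), (v, true)), mem_sideEdges.2 ⟨⟨hvw.symm, by simp⟩, rfl, rfl⟩, Or.inr rfl⟩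

end main

end Vale.Agent.P050.H398
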