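import Vale.Agent.P050.Cart.GrownPrism
import Vale.Agent.P050.Cart.Star

/-!
The entropic hypercontractive inequality of an extremal edge law, and its consequence for a set of
rungs.
-/

set_option linter.unusedSectionVars false

namespace Vale.Agent.P050.H398

open Finset Vale.Agent.P050.Cart

section mi

variable {Ω α β γ V : Type} [Fintype Ω] [Fintype α] [Fintype β] [Fintype γ]

/-- the mutual information of two functions -/
noncomputable def mi (P : Ω → ℝ) (f : Ω → α) (g : Ω → β) : ℝ :=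
  ent P f + ent P g - ent P (fun ω => (f ω, g ω))

/-- the family of the values at the points of `Q` -/
def fam (Z : V → Ω → α) (Q : Finset V) (ω : Ω) : {v // v ∈ Q} → α := fun v => Z v.1 ω

/-- the joint entropy of the values at the points of `Q` -/
noncomputable def eQ [DecidableEq V] (P : Ω → ℝ) (Z : V → Ω → α) (Q : Finset V) : ℝ :=
  ent P (fam Z Q)

theorem fam_eq_iff (Z : V → Ω → α) (Q : Finset V) (ω ω' : Ω) :
    fam Z Q ω = fam Z Q ω' ↔ ∀ v ∈ Q, Z v ω = Z v ω' := by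
  constructor
  · intro h v hv
    exact congrFun h ⟨v, hv⟩
  · intro h
    funext v
    exact h v.1 v.2

variable [DecidableEq V]

theorem eQ_empty {P : Ω → ℝ} (h1 : ∑ ω, P ω = 1) (Z : V → Ω → α) : eQ P Z ∅ = 0 := by
  unfold eQ
  rw [← ent_const h1 ()]
  refine ent_fib fun ω ω' => ?_
  rw [fam_eq_iff]
  simp

theorem eQ_insert (P : Ω → ℝ) (Z : V → Ω → α) (Q : Finset V) (w : V) :
    eQ P Z (insert w Q) = ent P (fun ω => (fam Z Q ω, Z w ω)) := by
  unfold eQ
  refine ent_fib fun ω ω' => ?_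
  rw [fam_eq_iff, Prod.ext_iff, fam_eq_iff]
  simp only [mem_insert, forall_eq_or_imp]
  exact and_comm

theorem eQ_union (P : Ω → ℝ) (Z : V → Ω → α) (Q R : Finset V) :
    eQ P Z (Q ∪ R) = ent P (fun ω => (fam Z Q ω, fam Z R ω)) := by
  unfold eQ
  refine ent_fib fun ω ω' => ?_
  rw [fam_eq_iff, Prod.ext_iff, fam_eq_iff, fam_eq_iff]
  simp only [mem_union]
  constructor
  · intro h
    exact ⟨fun v hv => h v (Or.inl hv), fun v hv => h v (Or.inr hv)⟩
  · rintro ⟨h1, h2⟩ v (hv | hv)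
    · exact h1 v hv
    · exact h2 v hv

theorem eQ_single (P : Ω → ℝ) (Z : V → Ω → α) (w : V) : eQ P Z {w} = ent P (Z w) := by
  unfold eQ
  refine ent_fib fun ω ω' => ?_
  rw [fam_eq_iff]
  simp

theorem mi_le_comp {P : Ω → ℝ} (hP : ∀ ω, 0 ≤ P ω) (f : Ω → α) (g : Ω → β) (F : α → γ) :
    mi P (fun ω => F (f ω)) g ≤ mi P f g := by
  unfold mi
  have := mi_le_left hP f g F
  linarith

theorem mi_fib {α' β' : Type} [Fintype α'] [Fintype β'] {P : Ω → ℝ} {f : Ω → α} {f' : Ω → α'}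
    {g : Ω → β} {g' : Ω → β'} (hf : ∀ ω ω', f ω = f ω' ↔ f' ω = f' ω')
    (hg : ∀ ω ω', g ω = g ω' ↔ g' ω = g' ω') : mi P f g = mi P f' g' := by
  unfold mi
  rw [ent_fib hf, ent_fib hg]
  congr 1
  refine ent_fib fun ω ω' => ?_
  rw [Prod.ext_iff, Prod.ext_iff]
  simp only
  rw [hf, hg]

theorem mi_nonneg {P : Ω → ℝ} (hP : ∀ ω, 0 ≤ P ω) (h1 : ∑ ω, P ω = 1) (f : Ω → α) (g : Ω → β) :
    0 ≤ mi P f g := by
  unfold mi
  have := ent_subadd hP h1 f g
  linarith

end mi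

variable {U : Type} [Fintype U]

/-- The joint law `π` of a pair satisfies `I(w; x y) ≥ θ (I(w; x) + I(w; y))` for all random
variables `w`. -/
def HC (θ : ℝ) (π : U → U → ℝ) : Prop :=
  ∀ (Ω α : Type) [Fintype Ω] [Fintype α] (P : Ω → ℝ) (w : Ω → α) (Z : Ω → U × U),
    (∀ ω, 0 ≤ P ω) → ∑ ω, P ω = 1 → mar P Z = (fun p => π p.1 p.2) →
    θ * (mi P w (fun ω => (Z ω).1) + mi P w (fun ω => (Z ω).2)) ≤ mi P w Z

theorem HC.mono {θ θ' : ℝ} {π : U → U → ℝ} (h : HC θ π) (hθ : θ' ≤ θ) : HC θ' π := by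
  intro Ω α _ _ P w Z hP h1 hZ
  refine le_trans ?_ (h Ω α P w Z hP h1 hZ)
  exact mul_le_mul_of_nonneg_right hθ (add_nonneg (mi_nonneg hP h1 _ _) (mi_nonneg hP h1 _ _))

theorem HC.rung {θ : ℝ} {π : U → U → ℝ} (h : HC θ π) {Ω α : Type} [Fintype Ω] [Fintype α]
    {P : Ω → ℝ} (hP : ∀ ω, 0 ≤ P ω) (h1 : ∑ ω, P ω = 1) (w : Ω → α) {Z : Ω → U × U} {b : Bool}
    (hZ : mar P Z = rho π b) :
    θ * (mi P w (fun ω => (Z ω).1) + mi P w (fun ω => (Z ω).2)) ≤ mi P w Z := by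
  cases b
  · refine h Ω α P w Z hP h1 ?_
    rw [hZ]
    funext p
    simp [rho]
  · have h2 := h Ω α P w (fun ω => ((Z ω).2, (Z ω).1)) hP h1 (by
      funext ⟨x, y⟩
      have e := mar_inj P Z (e := fun p : U × U => (p.2, p.1)) (fun p q hpq => by
        simp only [Prod.mk.injEq] at hpq
        exact Prod.ext hpq.2 hpq.1) (y, x)
      simp only at e
      rw [e, hZ]
      simp [rho])
    simp only at h2
    have e : mi P w (fun ω => ((Z ω).2, (Z ω).1)) = mi P w Z :=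
      mi_fib (fun _ _ => Iff.rfl) fun ω ω' => by
        rw [Prod.ext_iff, Prod.ext_iff]
        simp only
        exact and_comm
    rw [e] at h2
    linarith

/-- **A set of rungs.** -/
theorem HC.set {θ : ℝ} (hθ : 0 ≤ θ) {π : U → U → ℝ} (h : HC θ π) {Ω V : Type} [Fintype Ω]
    [DecidableEq V] {P : Ω → ℝ} (hP : ∀ ω, 0 ≤ P ω) (h1 : ∑ ω, P ω = 1) (Z : V → Ω → U × U)
    (s : V → Bool) (Q : Finset V) (hZ : ∀ v ∈ Q, mar P (Z v) = rho π (s v)) :
    θ * ((∑ v ∈ Q, ent P (fun ω => (Z v ω).1) - eQ P (fun v ω => (Z v ω).1) Q) +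
      (∑ v ∈ Q, ent P (fun ω => (Z v ω).2) - eQ P (fun v ω => (Z v ω).2) Q)) ≤
      ∑ v ∈ Q, ent P (Z v) - eQ P Z Q := by
  induction Q using Finset.induction_on with
  | empty => simp [eQ_empty h1]
  | insert w Q hw ih =>
    have ih' := ih fun v hv => hZ v (mem_insert_of_mem hv)
    rw [Finset.sum_insert hw, Finset.sum_insert hw, Finset.sum_insert hw, eQ_insert, eQ_insert,
      eQ_insert]
    have h2 := h.rung hP h1 (fam Z Q) (hZ w (mem_insert_self _ _))
    have h3 := mi_le_comp hP (fam Z Q) (fun ω => (Z w ω).1) (fun f v => (f v).1)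
    have h4 := mi_le_comp hP (fam Z Q) (fun ω => (Z w ω).2) (fun f v => (f v).2)
    have e3 : mi P (fun ω => (fun (f : {v // v ∈ Q} → U × U) v => (f v).1) (fam Z Q ω))
        (fun ω => (Z w ω).1) = eQ P (fun v ω => (Z v ω).1) Q + ent P (fun ω => (Z w ω).1) -
        ent P (fun ω => (fam (fun v ω => (Z v ω).1) Q ω, (Z w ω).1)) := rfl
    have e4 : mi P (fun ω => (fun (f : {v // v ∈ Q} → U × U) v => (f v).2) (fam Z Q ω))
        (fun ω => (Z w ω).2) = eQ P (fun v ω => (Z v ω).2) Q + ent P (fun ω => (Z w ω).2) -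
        ent P (fun ω => (fam (fun v ω => (Z v ω).2) Q ω, (Z w ω).2)) := rfl
    have e2 : mi P (fam Z Q) (Z w) = eQ P Z Q + ent P (Z w) -
        ent P (fun ω => (fam Z Q ω, Z w ω)) := rfl
    rw [e3] at h3
    rw [e4] at h4
    rw [e2] at h2
    have h5 := mul_le_mul_of_nonneg_left (add_le_add h3 h4) hθ
    nlinarith

end Vale.Agent.P050.H398
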