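import Vale.Agent.P050.H398.Amal
import Vale.Agent.P050.H398.Core
import Vale.Agent.P050.H398.ClonedDefs

/-!
Cloned graphs have good prism laws.
-/

set_option linter.unusedSectionVars false

namespace Vale.Agent.P050.H398

open Finset Vale.Agent.P050.Cart

variable {V U : Type} [DecidableEq V] [Fintype U] {θ : ℝ} {m : Bool → U → ℝ} {π : U → U → ℝ}
  {s : V → Bool} {H : SimpleGraph V}

theorem rho_total (hB : Base m π) (b : Bool) : ∑ z, rho π b z = 1 := hB.rho_sum b

/-- one vertex -/
theorem sta_vertex (hB : Base m π) (v : V) :
    Sta θ m π s H {v} (fun Q => Q ⊆ {v}) (rho π (s v)) (fun _ ω => ω) := by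
  have hv : mar (rho π (s v)) (fun ω : U × U => ω) = rho π (s v) := by
    funext z
    exact mar_id _ _
  refine ⟨hB.rho_nonneg _, rho_total hB _, ?_, ?_, fun Q hQ => hQ, ?_⟩
  · intro w hw
    rw [mem_singleton.1 hw]
    exact hv
  · intro u hu w hw huw
    rw [mem_singleton.1 hu, mem_singleton.1 hw] at huw
    exact absurd huw (H.irrefl)
  · intro Q hQ
    rcases Finset.subset_singleton_iff.1 hQ with rfl | rfl
    · rw [exc_empty (rho_total hB _)]
      unfold dd
      simp
    · rw [exc_single hB hv, dd_zero H]
      · simp
      · intro x hx y hy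
        rw [mem_singleton.1 hx, mem_singleton.1 hy]
        exact H.irrefl

/-- one edge -/
theorem sta_edge (hB : Base m π) (hθ1 : θ ≤ 1) {u v : V} (huv : H.Adj u v)
    (hs : s u ≠ s v) :
    Sta θ m π s H {u, v} (fun Q => Q ⊆ {u, v}) (chP m π (s u) 1)
      (fun w ω => if w = u then ω.1 else ω.2) := by
  classical
  have hne : u ≠ v := huv.ne
  have hsv : s v = !s u := by
    cases h1 : s u <;> cases h2 : s v <;> simp_all
  have hP0 := chP_nonneg hB (s u) 1
  have hP1 := chP_total hB (s u) 1
  have hu : mar (chP m π (s u) 1) (fun ω => if u = u then ω.1 else ω.2) = rho π (s u) := by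
    simp only [if_true]
    exact chP_fst hB (s u) 1
  have hv : mar (chP m π (s u) 1) (fun ω => if v = u then ω.1 else ω.2) = rho π (s v) := by
    simp only [hne.symm, if_false]
    rw [hsv]
    exact chP_snd hB (s u) 1
  have hii := ii_nonneg hB
  have hθ' : 0 ≤ 1 - θ := sub_nonneg.2 hθ1
  refine ⟨hP0, hP1, ?_, ?_, fun Q hQ => hQ, ?_⟩
  · intro w hw
    rcases mem_insert.1 hw with rfl | hw
    · exact hu
    · rw [mem_singleton.1 hw]
      exact hv
  · have e1 : mar (chP m π (s u) 1) (fun ω => (ω.1.1, ω.2.1)) = rho π (s u) := by
      funext ⟨x, y⟩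
      rw [st_row1 hB]
      rfl
    have e2 : mar (chP m π (s u) 1) (fun ω => (ω.1.2, ω.2.2)) = rho π (!s u) := by
      funext ⟨x, y⟩
      rw [st_row2 hB]
      cases s u <;> rfl
    have e1' : mar (chP m π (s u) 1) (fun ω => (ω.2.1, ω.1.1)) = rho π (!s u) := by
      funext ⟨x, y⟩
      have := mar_inj (chP m π (s u) 1) (fun ω => (ω.1.1, ω.2.1)) (sw_inj (U := U)) (y, x)
      have e3 : mar (chP m π (s u) 1) (fun ω => (ω.2.1, ω.1.1)) (x, y) =
        mar (chP m π (s u) 1) (fun ω => (ω.1.1, ω.2.1)) (y, x) := this
      rw [e3, e1]
      exact (rho_sw (s u) (y, x)).symm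
    have e2' : mar (chP m π (s u) 1) (fun ω => (ω.2.2, ω.1.2)) = rho π (s u) := by
      funext ⟨x, y⟩
      have := mar_inj (chP m π (s u) 1) (fun ω => (ω.1.2, ω.2.2)) (sw_inj (U := U)) (y, x)
      have e3 : mar (chP m π (s u) 1) (fun ω => (ω.2.2, ω.1.2)) (x, y) =
        mar (chP m π (s u) 1) (fun ω => (ω.1.2, ω.2.2)) (y, x) := this
      rw [e3, e2]
      have := rho_sw (π := π) (!s u) (y, x)
      rw [Bool.not_not] at this
      exact this.symm
    intro a ha b hb hab
    rcases mem_insert.1 ha with rfl | ha
    · rcases mem_insert.1 hb with rfl | hb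
      · exact absurd hab H.irrefl
      · rw [mem_singleton.1 hb]
        simp only [if_true, hne.symm, if_false]
        exact ⟨e1, e2⟩
    · rw [mem_singleton.1 ha] at hab ⊢
      rcases mem_insert.1 hb with rfl | hb
      · simp only [if_true, hne.symm, if_false, hsv, Bool.not_not]
        exact ⟨e1', e2'⟩
      · rw [mem_singleton.1 hb] at hab
        exact absurd hab H.irrefl
  · intro Q hQ
    have hcases : Q = ∅ ∨ Q = {u} ∨ Q = {v} ∨ Q = {u, v} := by
      by_cases h1 : u ∈ Q
      · by_cases h2 : v ∈ Q
        · right; right; right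
          refine subset_antisymm hQ ?_
          intro x hx
          rcases mem_insert.1 hx with rfl | hx
          · exact h1
          · rw [mem_singleton.1 hx]
            exact h2
        · right; left
          ext x
          rw [mem_singleton]
          constructor
          · intro hx
            rcases mem_insert.1 (hQ hx) with h | h
            · exact h
            · rw [mem_singleton.1 h] at hx
              exact absurd hx h2
          · rintro rfl
            exact h1
      · by_cases h2 : v ∈ Q
        · right; right; left
          ext x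
          rw [mem_singleton]
          constructor
          · intro hx
            rcases mem_insert.1 (hQ hx) with h | h
            · rw [h] at hx
              exact absurd hx h1
            · exact mem_singleton.1 h
          · rintro rfl
            exact h2
        · left
          rw [Finset.eq_empty_iff_forall_notMem]
          intro x hx
          rcases mem_insert.1 (hQ hx) with h | h
          · rw [h] at hx
            exact h1 hx
          · rw [mem_singleton.1 h] at hx
            exact h2 hx
    have hnn : 0 ≤ (1 - θ) * dd H Q Q * ii m π :=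
      mul_nonneg (mul_nonneg hθ' (dd_nonneg H Q Q)) hii
    rcases hcases with rfl | rfl | rfl | rfl
    · rw [exc_empty hP1]
      exact hnn
    · rw [exc_single (w := u) hB hu]
      exact hnn
    · rw [exc_single (w := v) hB hv]
      exact hnn
    · have hdd : dd H {u, v} {u, v} = 2 := by
        unfold dd
        rw [Finset.sum_pair hne, Finset.sum_pair hne, Finset.sum_pair hne]
        simp [huv, huv.symm]
        norm_num
      have q : ∀ {B : Type} [Fintype B] (pr : U × U → B), eQ (chP m π (s u) 1)
          (fun w ω => pr (if w = u then ω.1 else ω.2)) {u, v} =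
          ent (chP m π (s u) 1) (fun ω => (pr ω.1, pr ω.2)) := by
        intro B _ pr
        unfold eQ
        refine ent_fib fun p p' => ?_
        rw [fam_eq_iff, Prod.ext_iff]
        simp [hne.symm]
      have q0 : eQ (chP m π (s u) 1) (fun w ω => if w = u then ω.1 else ω.2) {u, v} =
          hc m π false 1 := by
        rw [← hc_one hB (s u)]
        exact q (fun a => a)
      have q1 : eQ (chP m π (s u) 1) (fun w ω => (if w = u then ω.1 else ω.2).1) {u, v} = hr π :=
        (q (fun a => a.1)).trans (hf_one hB (s u))
      have q2 : eQ (chP m π (s u) 1) (fun w ω => (if w = u then ω.1 else ω.2).2) {u, v} = hr π :=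
        (q (fun a => a.2)).trans (hs_one hB (s u))
      have hj := jj_nonneg hB
      unfold exc
      rw [q0, q1, q2, hdd, card_pair hne]
      unfold jj at hj
      unfold ii at hj ⊢
      push_cast
      linarith

end Vale.Agent.P050.H398
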