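import Vale.Agent.P050.H398.Law
import Vale.Agent.P050.H398.ClonedBasic

/-!
Cloned graphs have good prism laws: gluing and cloning.
-/

set_option linter.unusedSectionVars false

namespace Vale.Agent.P050.H398

open Finset Vale.Agent.P050.Cart

variable {V U : Type} [DecidableEq V] [Fintype U] {θ : ℝ} {m : Bool → U → ℝ} {π : U → U → ℝ}
  {s : V → Bool} {H : SimpleGraph V}

theorem law_small {A Ω₁ Ω₂ : Type} [Fintype A] [Fintype Ω₁] [Fintype Ω₂] {P₁ : Ω₁ → ℝ}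
    {P₂ : Ω₂ → ℝ} {Z₁ : V → Ω₁ → A} {Z₂ : V → Ω₂ → A} {N : Finset V} (hN : N.card ≤ 1)
    (h₁ : ∑ ω, P₁ ω = 1) (h₂ : ∑ ω, P₂ ω = 1) (hv : ∀ v ∈ N, mar P₁ (Z₁ v) = mar P₂ (Z₂ v)) :
    mar P₁ (fam Z₁ N) = mar P₂ (fam Z₂ N) := by
  classical
  funext a
  by_cases hne : N.Nonempty
  · obtain ⟨v, hvN⟩ := hne
    have hall : ∀ x ∈ N, x = v := fun x hx => Finset.card_le_one.1 hN x hx v hvN
    have key : ∀ {Ω : Type} [Fintype Ω] (P : Ω → ℝ) (Z : V → Ω → A),
        mar P (fam Z N) a = mar P (Z v) (a ⟨v, hvN⟩) := by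
      intro Ω _ P Z
      unfold mar
      refine Finset.sum_congr rfl fun ω _ => ?_
      have hiff : fam Z N ω = a ↔ Z v ω = a ⟨v, hvN⟩ := by
        constructor
        · intro h
          rw [← h]
          rfl
        · intro h
          funext x
          have hx : x = ⟨v, hvN⟩ := Subtype.ext (hall x.1 x.2)
          rw [hx]
          exact h
      by_cases h : Z v ω = a ⟨v, hvN⟩
      · rw [if_pos h, if_pos (hiff.2 h)]
      · rw [if_neg h, if_neg fun h' => h (hiff.1 h')]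
    rw [key, key, hv v hvN]
  · have key : ∀ {Ω : Type} [Fintype Ω] (P : Ω → ℝ) (Z : V → Ω → A), ∑ ω, P ω = 1 →
        mar P (fam Z N) a = 1 := by
      intro Ω _ P Z h
      unfold mar
      rw [← h]
      refine Finset.sum_congr rfl fun ω _ => ?_
      rw [if_pos]
      funext x
      exact absurd ⟨x.1, x.2⟩ hne
    rw [key P₁ Z₁ h₁, key P₂ Z₂ h₂]

theorem Sta.mono {Ω : Type} [Fintype Ω] {P : Ω → ℝ} {Z : V → Ω → U × U} {S S' : Finset V}
    {T T' : Finset V → Prop} (h : Sta θ m π s H S T P Z) (hS : S' = S) (hT : ∀ Q, T' Q → T Q) :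
    Sta θ m π s H S' T' P Z := by
  subst hS
  exact ⟨h.nonneg, h.total, h.vertex, h.edge, fun Q hQ => h.sub Q (hT Q hQ),
    fun Q hQ => h.good Q (hT Q hQ)⟩

/-- **Gluing.** -/
theorem Sta.glue (hB : Base m π) (hθ : 0 ≤ θ) (hθ1 : θ ≤ 1) (hHC : HC θ π)
    {Ω₁ Ω₂ : Type} [Fintype Ω₁] [Fintype Ω₂]
    {S₁ S₂ : Finset V} {T₁ T₂ : Finset V → Prop} {P₁ : Ω₁ → ℝ} {P₂ : Ω₂ → ℝ}
    {Z₁ : V → Ω₁ → U × U} {Z₂ : V → Ω₂ → U × U}
    (h₁ : Sta θ m π s H S₁ T₁ P₁ Z₁) (h₂ : Sta θ m π s H S₂ T₂ P₂ Z₂)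
    (hcard : (S₁ ∩ S₂).card ≤ 1)
    (hno : ∀ x ∈ S₁, x ∉ S₂ → ∀ y ∈ S₂, y ∉ S₁ → ¬ H.Adj x y) :
    ∃ (Ω : Type) (_ : Fintype Ω) (P : Ω → ℝ) (Z : V → Ω → U × U),
      Sta θ m π s H (S₁ ∪ S₂) (fun Q => T₁ Q ∨ T₂ Q ∨ ∃ Q₁ Q₂, T₁ Q₁ ∧ T₂ Q₂ ∧ S₁ ∩ S₂ ⊆ Q₁ ∧
        S₁ ∩ S₂ ⊆ Q₂ ∧ Q = Q₁ ∪ Q₂) P Z := by
  refine ⟨Ω₁ × Ω₂, inferInstance, _, _, Sta.amal hB hθ hθ1 hHC h₁ h₂ ?_ ?_ hno⟩
  · intro x hx y hy
    rw [Finset.card_le_one.1 hcard x hx y hy]
    exact H.irrefl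
  · refine law_small hcard h₁.total h₂.total fun v hv => ?_
    rw [h₁.vertex v (mem_inter.1 hv).1, h₂.vertex v (mem_inter.1 hv).2]

theorem exists_leftInv {R : Finset V} {σ : V → V} (hσ : Set.InjOn σ R) :
    ∃ ψ : V → V, ∀ x ∈ R, ψ (σ x) = x := by
  classical
  refine ⟨fun v => if h : ∃ x ∈ R, σ x = v then h.choose else v, fun x hx => ?_⟩
  have h : ∃ y ∈ R, σ y = σ x := ⟨x, hx, rfl⟩
  simp only
  rw [dif_pos h]
  exact hσ h.choose_spec.1 hx h.choose_spec.2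

theorem eQ_image {Ω A : Type} [Fintype Ω] [Fintype A] (P : Ω → ℝ) (z : V → Ω → A) {Q : Finset V}
    {σ ψ : V → V} (hψ : ∀ x ∈ Q, ψ (σ x) = x) :
    eQ P (fun v ω => z (ψ v) ω) (Q.image σ) = eQ P z Q := by
  unfold eQ
  refine ent_fib fun ω ω' => ?_
  rw [fam_eq_iff, fam_eq_iff]
  constructor
  · intro h v hv
    have := h (σ v) (mem_image_of_mem σ hv)
    rw [hψ v hv] at this
    exact this
  · intro h v hv
    obtain ⟨x, hx, rfl⟩ := mem_image.1 hv
    rw [hψ x hx]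
    exact h x hx

/-- a copy of a part of the graph -/
theorem Sta.copy {Ω : Type} [Fintype Ω] {P : Ω → ℝ} {Z : V → Ω → U × U} {S : Finset V}
    {T : Finset V → Prop} (h : Sta θ m π s H S T P Z) {R : Finset V} {σ ψ : V → V}
    (hR : T R) (hσ : Set.InjOn σ R) (hs : ∀ x ∈ R, s (σ x) = s x)
    (hadj : ∀ x ∈ R, ∀ y ∈ R, H.Adj (σ x) (σ y) ↔ H.Adj x y) (hψ : ∀ x ∈ R, ψ (σ x) = x) :
    Sta θ m π s H (R.image σ) (fun Q => ∃ Q₂, T Q₂ ∧ Q₂ ⊆ R ∧ Q = Q₂.image σ) P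
      (fun v ω => Z (ψ v) ω) := by
  classical
  have hRS := h.sub R hR
  refine ⟨h.nonneg, h.total, ?_, ?_, ?_, ?_⟩
  · intro v hv
    obtain ⟨x, hx, rfl⟩ := mem_image.1 hv
    rw [hψ x hx, hs x hx]
    exact h.vertex x (hRS hx)
  · intro u hu v hv huv
    obtain ⟨x, hx, rfl⟩ := mem_image.1 hu
    obtain ⟨y, hy, rfl⟩ := mem_image.1 hv
    rw [hψ x hx, hψ y hy, hs x hx]
    exact h.edge x (hRS hx) y (hRS hy) ((hadj x hx y hy).1 huv)
  · rintro Q ⟨Q₂, -, hQ₂, rfl⟩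
    exact image_subset_image hQ₂
  · rintro Q ⟨Q₂, hT, hQ₂, rfl⟩
    have hψ' : ∀ x ∈ Q₂, ψ (σ x) = x := fun x hx => hψ x (hQ₂ hx)
    have hσ' : Set.InjOn σ Q₂ := hσ.mono (by exact_mod_cast hQ₂)
    have e0 := eQ_image P Z hψ'
    have e1 := eQ_image P (fun v ω => (Z v ω).1) hψ'
    have e2 := eQ_image P (fun v ω => (Z v ω).2) hψ'
    have e3 : exc θ m π P (fun v ω => Z (ψ v) ω) (Q₂.image σ) = exc θ m π P Z Q₂ := by
      unfold exc
      rw [e0, e1, e2, card_image_of_injOn hσ']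
    have e4 : dd H (Q₂.image σ) (Q₂.image σ) = dd H Q₂ Q₂ := by
      unfold dd
      rw [Finset.sum_image hσ']
      refine Finset.sum_congr rfl fun x hx => ?_
      rw [Finset.sum_image hσ']
      refine Finset.sum_congr rfl fun y hy => ?_
      refine if_congr (hadj x (hQ₂ hx) y (hQ₂ hy)) rfl rfl
    rw [e3, e4]
    exact h.good Q₂ hT

/-- **Cloning.** -/
theorem Sta.clone (hB : Base m π) (hθ : 0 ≤ θ) (hθ1 : θ ≤ 1) (hHC : HC θ π)
    {Ω : Type} [Fintype Ω] {P : Ω → ℝ} {Z : V → Ω → U × U} {S : Finset V}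
    {T : Finset V → Prop} (h : Sta θ m π s H S T P Z) {N R : Finset V} {σ : V → V}
    (hNR : N ⊆ R) (hR : T R) (hN : ∀ x ∈ N, ∀ y ∈ N, ¬ H.Adj x y) (hσN : ∀ x ∈ N, σ x = x)
    (hσS : ∀ x ∈ R, x ∉ N → σ x ∉ S) (hσ : Set.InjOn σ R) (hs : ∀ x ∈ R, s (σ x) = s x)
    (hadj : ∀ x ∈ R, ∀ y ∈ R, H.Adj (σ x) (σ y) ↔ H.Adj x y)
    (hno : ∀ x ∈ R, x ∉ N → ∀ y ∈ S, y ∉ N → ¬ H.Adj (σ x) y) :
    ∃ (Ω : Type) (_ : Fintype Ω) (P : Ω → ℝ) (Z : V → Ω → U × U),
      Sta θ m π s H (S ∪ R.image σ) (fun Q => T Q ∨ (∃ Q₂, T Q₂ ∧ Q₂ ⊆ R ∧ Q = Q₂.image σ) ∨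
        ∃ Q₁ Q₂, T Q₁ ∧ (T Q₂ ∧ Q₂ ⊆ R) ∧ N ⊆ Q₁ ∧ N ⊆ Q₂ ∧ Q = Q₁ ∪ Q₂.image σ) P Z := by
  obtain ⟨ψ, hψ⟩ := exists_leftInv hσ
  have hRS := h.sub R hR
  have hcopy := h.copy hR hσ hs hadj hψ
  have hint : S ∩ R.image σ = N := by
    ext x
    rw [mem_inter, mem_image]
    constructor
    · rintro ⟨hx, y, hy, rfl⟩
      by_cases hyN : y ∈ N
      · rw [hσN y hyN]
        exact hyN
      · exact absurd hx (hσS y hy hyN)
    · intro hx
      exact ⟨hRS (hNR hx), x, hNR hx, hσN x hx⟩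
  have hψN : ∀ x ∈ N, ψ x = x := by
    intro x hx
    have := hψ x (hNR hx)
    rw [hσN x hx] at this
    exact this
  refine ⟨Ω × Ω, inferInstance, _, _, (Sta.amal hB hθ hθ1 hHC h hcopy ?_ ?_ ?_).mono rfl ?_⟩
  · rw [hint]
    exact hN
  · rw [hint]
    have : fam (fun v ω => Z (ψ v) ω) N = fam Z N := by
      funext ω x
      show Z (ψ x.1) ω = Z x.1 ω
      rw [hψN x.1 x.2]
    rw [this]
  · intro x hx hxR y hy hyS hxy
    obtain ⟨z, hz, rfl⟩ := mem_image.1 hy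
    have hzN : z ∉ N := fun hzN => hyS (by
      rw [hσN z hzN]
      exact hRS hz)
    have hxN : x ∉ N := fun hxN => hxR (mem_image.2 ⟨x, hNR hxN, hσN x hxN⟩)
    exact hno z hz hzN x hx hxN hxy.symm
  · rintro Q (hQ | hQ | ⟨Q₁, Q₂, hQ₁, ⟨hQ₂, hQ₂R⟩, hN₁, hN₂, rfl⟩)
    · exact Or.inl hQ
    · exact Or.inr (Or.inl hQ)
    · refine Or.inr (Or.inr ⟨Q₁, Q₂.image σ, hQ₁, ⟨Q₂, hQ₂, hQ₂R, rfl⟩, ?_, ?_, rfl⟩)
      · rw [hint]
        exact hN₁
      · rw [hint]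
        intro x hx
        exact mem_image.2 ⟨x, hN₂ hx, hσN x hx⟩

/-- **Cloned graphs have laws.** -/
theorem exists_sta (hB : Base m π) (hθ : 0 ≤ θ) (hθ1 : θ ≤ 1) (hHC : HC θ π)
    (hs : ∀ u v, H.Adj u v → s u ≠ s v) {S : Finset V} {T : Finset V → Prop}
    (h : Cloned H s S T) : ∃ (Ω : Type) (_ : Fintype Ω) (P : Ω → ℝ) (Z : V → Ω → U × U),
      Sta θ m π s H S T P Z := by
  induction h with
  | vertex v => exact ⟨_, _, _, _, sta_vertex hB v⟩
  | edge u v huv => exact ⟨_, _, _, _, sta_edge hB hθ1 huv (hs u v huv)⟩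
  | glue _ _ hcard hno ih₁ ih₂ =>
    obtain ⟨Ω₁, _, P₁, Z₁, h₁⟩ := ih₁
    obtain ⟨Ω₂, _, P₂, Z₂, h₂⟩ := ih₂
    exact Sta.glue hB hθ hθ1 hHC h₁ h₂ hcard hno
  | clone _ N R σ hNR hR hN hσN hσS hσ hσs hadj hno ih =>
    obtain ⟨Ω, _, P, Z, h⟩ := ih
    exact Sta.clone hB hθ hθ1 hHC h hNR hR hN hσN hσS hσ hσs hadj hno

section good

variable {V : Type} [Fintype V] [DecidableEq V] {H : SimpleGraph V} {s : V → Bool}

theorem dd_univ (hs : ∀ u v, H.Adj u v → s u ≠ s v) :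
    dd H univ univ = 2 * (Lev.sideEdges H s).card := by
  classical
  have e1 : dd H univ univ = ∑ p : V × V, if H.Adj p.1 p.2 then (1 : ℝ) else 0 := by
    unfold dd
    rw [Fintype.sum_prod_type]
  have e2 : ∀ p : V × V, (if H.Adj p.1 p.2 then (1 : ℝ) else 0) =
      (if p ∈ Lev.sideEdges H s then 1 else 0) + (if p.swap ∈ Lev.sideEdges H s then 1 else 0) := by
    rintro ⟨u, v⟩
    unfold Lev.sideEdges
    simp only [mem_filter, mem_univ, true_and, Prod.swap]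
    by_cases h : H.Adj u v
    · have h1 := hs u v h
      cases hu : s u <;> cases hv : s v
      · exact absurd (hu.trans hv.symm) h1
      · simp [h, h.symm]
      · simp [h, h.symm]
      · exact absurd (hu.trans hv.symm) h1
    · have h' : ¬ H.Adj v u := fun h' => h h'.symm
      simp [h, h']
  have e3 : ∑ p : V × V, (if p ∈ Lev.sideEdges H s then (1 : ℝ) else 0) =
      (Lev.sideEdges H s).card := by
    simp
  have e4 : ∑ p : V × V, (if p.swap ∈ Lev.sideEdges H s then (1 : ℝ) else 0) =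
      (Lev.sideEdges H s).card := by
    rw [← e3]
    exact Equiv.sum_comp (Equiv.prodComm V V)
      (fun p => if p ∈ Lev.sideEdges H s then (1 : ℝ) else 0)
  rw [e1, Finset.sum_congr rfl fun p _ => e2 p, Finset.sum_add_distrib, e3, e4]
  ring

/-- **Cloned graphs are good.** -/
theorem good_of_cloned (hs : ∀ u v, H.Adj u v → s u ≠ s v) {T : Finset V → Prop}
    (h : Cloned H s univ T) : Good (Lev.sideEdges H s) s := by
  classical
  refine ⟨fun e he => ?_, fun θ hθ hθ1 U _ m π hB hHC => ?_⟩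
  · unfold Lev.sideEdges at he
    rw [mem_filter] at he
    exact he.2.2
  obtain ⟨Ω, _, P, Z, hst⟩ := exists_sta hB hθ hθ1 hHC hs h
  set Y : Ω → V → U × U := fun ω v => Z v ω with hY
  set μ : (V → U × U) → ℝ := mar P Y with hμ
  have hv : ∀ v, mar μ (fun z => z v) = rho π (s v) := by
    intro v
    rw [← hst.vertex v (mem_univ v)]
    funext a
    rw [hμ, mar_mar]
  have hent : ∀ {B : Type} [Fintype B] (pr : U × U → B), ent μ (fun z v => pr (z v)) =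
      eQ P (fun v ω => pr (Z v ω)) univ := by
    intro B _ pr
    rw [hμ, ent_mar]
    unfold eQ
    refine ent_fib fun ω ω' => ?_
    rw [fam_eq_iff, funext_iff]
    simp [hY]
  have hcv : ∑ v, hm m (s v) + ∑ v, hm m (!s v) =
      Fintype.card V * (hm m false + hm m true) := by
    rw [← Finset.sum_add_distrib, Finset.sum_congr rfl fun v _ => hm_add (s v), Finset.sum_const,
      Finset.card_univ, nsmul_eq_mul]
  have ht2 : tc2 m s (rows μ) = Fintype.card V * (hm m false + hm m true) -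
      ent μ (fun z => z) := by
    unfold tc2
    rw [sum_rows μ fun f g => (Real.log (rows μ f g) - ∑ v, Real.log (m (s v) (f v))
      - ∑ v, Real.log (m (!s v) (g v)))]
    have e : ∀ z : V → U × U, rows μ (fun v => (z v).1) (fun v => (z v).2) = μ z := fun z => rfl
    simp_rw [e, mul_sub, Finset.sum_sub_distrib]
    rw [sum_log_fst hB hv, sum_log_snd hB hv, ent_id']
    linarith
  have ht1 : tc m s (fstLaw (rows μ)) = ∑ v, hm m (s v) - ent μ (fun z v => (z v).1) := by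
    unfold tc
    rw [rows_fst, sum_mar μ (fun z v => (z v).1) (fun f => Real.log (mar μ (fun z v => (z v).1) f) -
      ∑ v, Real.log (m (s v) (f v)))]
    simp_rw [mul_sub, Finset.sum_sub_distrib]
    rw [sum_log_fst hB hv, ent_eq]
    ring
  have ht3 : tc m (fun v => !s v) (sndLaw (rows μ)) =
      ∑ v, hm m (!s v) - ent μ (fun z v => (z v).2) := by
    unfold tc
    rw [rows_snd, sum_mar μ (fun z v => (z v).2) (fun f => Real.log (mar μ (fun z v => (z v).2) f) -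
      ∑ v, Real.log (m (!s v) (f v)))]
    simp_rw [mul_sub, Finset.sum_sub_distrib]
    rw [sum_log_snd hB hv, ent_eq]
    ring
  have htot : ∑ z, μ z = 1 := by
    rw [hμ, mar_total, hst.total]
  refine ⟨rows μ, ⟨fun f g => mar_nonneg hst.nonneg _ _, ?_, ?_, ?_, ?_, ?_⟩, ?_⟩
  · have := sum_rows μ fun _ _ => 1
    simp only [mul_one] at this
    rw [this, htot]
  · intro v hsv F
    rw [sum_rows μ fun f g => F (f v) (g v)]
    have e := sum_mar μ (fun z => z v) (fun a => F a.1 a.2)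
    rw [← e, hv, hsv, Fintype.sum_prod_type]
    rfl
  · intro v hsv F
    rw [sum_rows μ fun f g => F (g v) (f v)]
    have e := sum_mar μ (fun z => z v) (fun a => F a.2 a.1)
    rw [← e, hv, hsv, Fintype.sum_prod_type, Finset.sum_comm]
    rfl
  · intro e he F
    rw [sum_rows μ fun f _ => F (f e.1) (f e.2)]
    unfold Lev.sideEdges at he
    rw [mem_filter] at he
    obtain ⟨-, hadj, hs1, hs2⟩ := he
    have h1 := (hst.edge e.1 (mem_univ _) e.2 (mem_univ _) hadj).1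
    have e1 := sum_mar μ (fun z => ((z e.1).1, (z e.2).1)) (fun a => F a.1 a.2)
    have e2 : mar μ (fun z => ((z e.1).1, (z e.2).1)) = rho π false := by
      rw [← hs1, ← h1]
      funext a
      rw [hμ, mar_mar]
    rw [← e1, e2, Fintype.sum_prod_type]
    rfl
  · intro e he F
    rw [sum_rows μ fun _ g => F (g e.2) (g e.1)]
    unfold Lev.sideEdges at he
    rw [mem_filter] at he
    obtain ⟨-, hadj, hs1, hs2⟩ := he
    have h1 := (hst.edge e.1 (mem_univ _) e.2 (mem_univ _) hadj).2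
    have e1 := sum_mar μ (fun z => ((z e.1).2, (z e.2).2)) (fun a => F a.2 a.1)
    have e2 : mar μ (fun z => ((z e.1).2, (z e.2).2)) = rho π true := by
      have e3 : rho π true = rho π (!s e.1) := by rw [hs1]; rfl
      rw [e3, ← h1]
      funext a
      rw [hμ, mar_mar]
    rw [← e1, e2, Fintype.sum_prod_type, Finset.sum_comm]
    rfl
  · rw [ht2, ht1, ht3, inf_eq hB]
    have hg := hst.good univ h.top
    rw [dd_univ hs] at hg
    have h0 := hent (fun a => a)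
    have h1 := hent (fun a => a.1)
    have h2 := hent (fun a => a.2)
    have h0' : ent μ (fun z => z) = eQ P Z univ := h0
    rw [h0', h1, h2]
    unfold exc at hg
    rw [Finset.card_univ] at hg
    have e5 : θ * (∑ v, hm m (s v) - eQ P (fun v ω => (Z v ω).1) univ +
        (∑ v, hm m (!s v) - eQ P (fun v ω => (Z v ω).2) univ)) =
        θ * (Fintype.card V * (hm m false + hm m true) - eQ P (fun v ω => (Z v ω).1) univ -
          eQ P (fun v ω => (Z v ω).2) univ) := by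
      rw [← hcv]
      ring
    rw [e5]
    have e6 : (Fintype.card V : ℝ) * ii m π = Fintype.card V * (hm m false + hm m true) -
        Fintype.card V * hr π := by
      unfold ii
      ring
    linarith

end good

end Vale.Agent.P050.H398
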