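import Vale.Agent.P050.TDefs
import Mathlib.Combinatorics.SimpleGraph.Acyclic
import Vale.Agent.P050.H398.ClonedDefs

/-!
Sidorenko graphs and cloned graphs.
-/

namespace Vale.Agent.P050

/-- `G` is bipartite and `t(G, Γ) ≥ p(Γ)^e(G)` for every finite graph `Γ`. -/
def IsSidorenko {V : Type} (G : SimpleGraph V) : Prop :=
  G.IsBipartite ∧ ∀ (X : Type) [Finite X] [Nonempty X] (Γ : SimpleGraph X),
    edgeDensity Γ ^ Nat.card G.edgeSet ≤ homDensity G Γ

/-- `H` is tree-arrangeable: `H` is bipartite with parts `A` and its complement, and there is a tree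
`T` on `A` such that `N(u) ∩ N(v) ⊆ N(w)` whenever `w` is on the path of `T` from `u` to `v`. -/
def TreeArrangeable {V : Type} (H : SimpleGraph V) : Prop :=
  ∃ (A : Set V) (T : SimpleGraph A), T.IsTree ∧ (∀ u v, H.Adj u v → (u ∈ A ↔ v ∉ A)) ∧
    ∀ (u v w : A) (p : T.Walk u v), p.IsPath → w ∈ p.support →
      ∀ b, H.Adj u b → H.Adj v b → H.Adj w b

/-- The whole graph `H` is built by the steps of `Cloned`, for some 2-colouring. -/
def IsCloned {V : Type} [Fintype V] [DecidableEq V] (H : SimpleGraph V) : Prop :=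
  ∃ (s : V → Bool) (T : Finset V → Prop), (∀ u v, H.Adj u v → s u ≠ s v) ∧
    Cloned H s Finset.univ T

end Vale.Agent.P050
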