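import Vale.Agent.P050.H398.Ord
import Vale.Agent.P050.H398.Law2
import Vale.Agent.P050.H398.MulDefs

/-!
Cartesian products of Sidorenko graphs with cloned graphs.
-/

set_option linter.unusedSectionVars false

namespace Vale.Agent.P050.H398

open Finset Vale.Agent.P050.Cart Vale.Agent.P050.Lev

section hom

theorem bool_eq {x y a c : Bool} (h : a ≠ c) (h' : x ≠ y) (hx : x = a) : y = c := by
  subst hx
  cases x <;> cases y <;> cases c <;> simp_all

theorem bool_ne {x y a c : Bool} (h : a ≠ c) (h' : x ≠ y) (hx : x ≠ a) : y ≠ c := by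
  cases x <;> cases y <;> cases a <;> cases c <;> simp_all

variable {V W X : Type} {G : SimpleGraph V} {H : SimpleGraph W} {s : V → Bool}

/-- the homomorphisms from the product with the double cover are pairs of homomorphisms -/
def homEquiv (hs : ∀ u v, G.Adj u v → s u ≠ s v) (Γ : SimpleGraph X) :
    ((cover G □ H) →g Γ) ≃ ((G □ H) →g Γ) × ((G □ H) →g Γ) where
  toFun f := (⟨fun p => f ((p.1, s p.1), p.2), by
      rintro ⟨a, b⟩ ⟨c, d⟩ h
      refine f.map_rel ?_
      rcases SimpleGraph.boxProd_adj.1 h with ⟨h1, h2⟩ | ⟨h1, h2⟩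
      · simp only at h1 h2
        subst h2
        exact SimpleGraph.boxProd_adj.2 (Or.inl ⟨⟨h1, hs _ _ h1⟩, rfl⟩)
      · simp only at h1 h2
        subst h2
        exact SimpleGraph.boxProd_adj.2 (Or.inr ⟨h1, rfl⟩)⟩,
    ⟨fun p => f ((p.1, !s p.1), p.2), by
      rintro ⟨a, b⟩ ⟨c, d⟩ h
      refine f.map_rel ?_
      rcases SimpleGraph.boxProd_adj.1 h with ⟨h1, h2⟩ | ⟨h1, h2⟩
      · simp only at h1 h2
        subst h2
        exact SimpleGraph.boxProd_adj.2 (Or.inl ⟨⟨h1, fun h => hs _ _ h1 (by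
          simpa using h)⟩, rfl⟩)
      · simp only at h1 h2
        subst h2
        exact SimpleGraph.boxProd_adj.2 (Or.inr ⟨h1, rfl⟩)⟩)
  invFun q := ⟨fun r => if r.1.2 = s r.1.1 then q.1 (r.1.1, r.2) else q.2 (r.1.1, r.2), by
      rintro ⟨⟨a, x⟩, b⟩ ⟨⟨c, y⟩, d⟩ h
      rcases SimpleGraph.boxProd_adj.1 h with ⟨h1, h2⟩ | ⟨h1, h2⟩
      · simp only at h1 h2
        subst h2
        obtain ⟨h3, h4⟩ := h1
        simp only at h3 h4
        have h5 := hs _ _ h3
        have h6 : (G □ H).Adj (a, b) (c, b) := SimpleGraph.boxProd_adj.2 (Or.inl ⟨h3, rfl⟩)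
        by_cases hx : x = s a
        · have hy : y = s c := bool_eq h5 h4 hx
          rw [if_pos hx, if_pos hy]
          exact q.1.map_rel h6
        · have hy : y ≠ s c := bool_ne h5 h4 hx
          rw [if_neg hx, if_neg hy]
          exact q.2.map_rel h6
      · simp only at h1 h2
        obtain ⟨rfl, rfl⟩ := Prod.mk.inj h2
        have h6 : (G □ H).Adj (a, b) (a, d) := SimpleGraph.boxProd_adj.2 (Or.inr ⟨h1, rfl⟩)
        by_cases hx : x = s a
        · rw [if_pos hx, if_pos hx]
          exact q.1.map_rel h6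
        · rw [if_neg hx, if_neg hx]
          exact q.2.map_rel h6⟩
  left_inv f := by
    ext ⟨⟨a, x⟩, b⟩
    show (if x = s a then f ((a, s a), b) else f ((a, !s a), b)) = f ((a, x), b)
    by_cases hx : x = s a
    · rw [if_pos hx, hx]
    · rw [if_neg hx]
      rw [(Bool.eq_not).2 hx]
  right_inv q := by
    refine Prod.ext ?_ ?_
    · ext ⟨a, b⟩
      show (if s a = s a then q.1 (a, b) else q.2 (a, b)) = q.1 (a, b)
      rw [if_pos rfl]
    · ext ⟨a, b⟩
      show (if (!s a) = s a then q.1 (a, b) else q.2 (a, b)) = q.2 (a, b)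
      rw [if_neg (by cases s a <;> simp)]

end hom

variable {V W : Type} [Fintype V] [DecidableEq V] [Fintype W] [DecidableEq W]
  {G : SimpleGraph V} {H : SimpleGraph W} {s : V → Bool} {t : W → Bool}

theorem homDensity_cover (hs : ∀ u v, G.Adj u v → s u ≠ s v) {X : Type} [Finite X]
    (Γ : SimpleGraph X) : homDensity (cover G □ H) Γ = homDensity (G □ H) Γ ^ 2 := by
  unfold homDensity
  rw [Nat.card_congr (homEquiv hs Γ), Nat.card_prod, div_pow, ← pow_mul]
  congr 1
  · push_cast
    ring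
  · congr 1
    simp only [Nat.card_eq_fintype_card, Fintype.card_prod, Fintype.card_bool]
    ring

theorem cover_proper : ∀ u v, (cover G).Adj u v → u.2 ≠ v.2 := fun _ _ h => h.2

theorem box_proper {V W : Type} {G : SimpleGraph V} {H : SimpleGraph W} {s : V → Bool}
    {t : W → Bool} (hs : ∀ u v, G.Adj u v → s u ≠ s v) (ht : ∀ u v, H.Adj u v → t u ≠ t v) :
    ∀ u v, (G □ H).Adj u v → xor (s u.1) (t u.2) ≠ xor (s v.1) (t v.2) := by
  rintro ⟨a, b⟩ ⟨c, d⟩ h
  rcases SimpleGraph.boxProd_adj.1 h with ⟨h1, h2⟩ | ⟨h1, h2⟩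
  · simp only at h1 h2 ⊢
    subst h2
    intro h3
    exact hs _ _ h1 (by simpa using h3)
  · simp only at h1 h2 ⊢
    subst h2
    intro h3
    exact ht _ _ h1 (by simpa using h3)

theorem edges_cover (hs : ∀ u v, G.Adj u v → s u ≠ s v) (ht : ∀ u v, H.Adj u v → t u ≠ t v) :
    Nat.card (cover G □ H).edgeSet = 2 * Nat.card (G □ H).edgeSet := by
  have hsd : ∀ e ∈ sideEdges H t, t e.1 = false ∧ t e.2 = true := fun e he =>
    (mem_sideEdges.1 he).2
  rw [← card_sideEdges (cover G □ H) (fun p => xor p.1.2 (t p.2)) (box_proper cover_proper ht),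
    ← card_sideEdges (G □ H) (fun p => xor (s p.1) (t p.2)) (box_proper hs ht),
    sideEdges_boxProd (cover G) H cover_proper ht, sideEdges_boxProd G H hs ht,
    card_prodEdges hsd, card_prodEdges hsd, card_cover hs, Fintype.card_prod, Fintype.card_bool]
  ring

/-- **From the double cover to graphs.** -/
theorem ordinary_of_cover (hs : ∀ u v, G.Adj u v → s u ≠ s v)
    (ht : ∀ u v, H.Adj u v → t u ≠ t v)
    (h : KSid (prodEdges (sideEdges (cover G) Prod.snd) Prod.snd (sideEdges H t) t)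
      (fun p => xor p.1.2 (t p.2))) {X : Type} [Finite X] [Nonempty X] (Γ : SimpleGraph X) :
    edgeDensity Γ ^ Nat.card (G □ H).edgeSet ≤ homDensity (G □ H) Γ := by
  have hg : GSid (cover G □ H) (fun p => xor p.1.2 (t p.2)) := by
    refine ⟨box_proper cover_proper ht, ?_⟩
    rw [sideEdges_boxProd (cover G) H cover_proper ht]
    exact h
  have h1 := sidorenko_of_gsid hg Γ
  rw [edges_cover hs ht, homDensity_cover hs, mul_comm, pow_mul] at h1
  have h2 : 0 ≤ homDensity (G □ H) Γ := by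
    unfold homDensity
    positivity
  exact le_of_sq_le_sq h1 h2

end Vale.Agent.P050.H398
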