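import Vale.Agent.P050.H398.Cover

/-!
The Sidorenko inequality for all finite graphs gives the one for symmetric kernels.
-/

set_option linter.unusedSectionVars false

namespace Vale.Agent.P050.H398

open Finset Vale.Agent.P050.Cart Vale.Agent.P050.Lev

section expect

variable {I : Type} [Fintype I] [DecidableEq I]

/-- the weight of a random subset -/
noncomputable def bw (q : I → ℝ) (ω : I → Bool) : ℝ := ∏ i, if ω i then q i else 1 - q i

theorem bw_nonneg {q : I → ℝ} (h0 : ∀ i, 0 ≤ q i) (h1 : ∀ i, q i ≤ 1) (ω : I → Bool) :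
    0 ≤ bw q ω := by
  refine Finset.prod_nonneg fun i _ => ?_
  split_ifs
  · exact h0 i
  · exact sub_nonneg.2 (h1 i)

theorem bw_prod (q : I → ℝ) (A : Finset I) :
    ∑ ω, bw q ω * ∏ i ∈ A, (if ω i then (1 : ℝ) else 0) = ∏ i ∈ A, q i := by
  have h1 : ∀ ω : I → Bool, bw q ω * ∏ i ∈ A, (if ω i then (1 : ℝ) else 0) =
      ∏ i, (if ω i then q i else 1 - q i) * (if i ∈ A then (if ω i then (1 : ℝ) else 0) else 1) := by
    intro ω
    rw [Finset.prod_mul_distrib]
    unfold bw
    congr 1
    rw [Finset.prod_ite_mem, Finset.univ_inter]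
  simp_rw [h1]
  have h2 := Finset.prod_univ_sum (fun _ : I => (univ : Finset Bool)) (fun i b =>
    (if b then q i else 1 - q i) * (if i ∈ A then (if b then (1 : ℝ) else 0) else 1))
  rw [Fintype.piFinset_univ] at h2
  rw [← h2]
  have h3 : ∀ i, ∑ b : Bool, (if b then q i else 1 - q i) *
      (if i ∈ A then (if b then (1 : ℝ) else 0) else 1) = if i ∈ A then q i else 1 := by
    intro i
    by_cases hi : i ∈ A
    · simp [hi]
    · simp [hi]
  rw [Finset.prod_congr rfl fun i _ => h3 i, Finset.prod_ite_mem, Finset.univ_inter]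

theorem bw_total (q : I → ℝ) : ∑ ω, bw q ω = 1 := by
  have := bw_prod q ∅
  simpa using this

end expect

section marg

variable {A B U : Type} [Fintype A] [DecidableEq A] [Fintype B] [DecidableEq B] [Fintype U]

/-- the marginal of a product law -/
theorem prod_marginal {m : U → ℝ} (h1 : ∑ x, m x = 1) {ι : A → B} (hι : Function.Injective ι)
    (F : (A → U) → ℝ) :
    ∑ X : B → U, (∏ b, m (X b)) * F (fun a => X (ι a)) = ∑ Y : A → U, (∏ a, m (Y a)) * F Y := by
  classical
  have h2 : ∀ X : B → U, (∏ b, m (X b)) * F (fun a => X (ι a)) =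
      ∑ Y : A → U, F Y * if (fun a => X (ι a)) = Y then ∏ b, m (X b) else 0 := by
    intro X
    rw [Finset.sum_eq_single (fun a => X (ι a))]
    · rw [if_pos rfl, mul_comm]
    · intro Y _ hY
      rw [if_neg (Ne.symm hY), mul_zero]
    · intro hn
      exact absurd (mem_univ _) hn
  simp_rw [h2]
  rw [Finset.sum_comm]
  refine Finset.sum_congr rfl fun Y _ => ?_
  rw [← Finset.mul_sum, mul_comm]
  congr 1
  have h3 : ∀ X : B → U, (if (fun a => X (ι a)) = Y then ∏ b, m (X b) else 0) =
      ∏ b, (m (X b) * if ∀ a, ι a = b → X b = Y a then 1 else 0) := by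
    intro X
    rw [Finset.prod_mul_distrib, Finset.prod_ite_zero]
    by_cases hX : (fun a => X (ι a)) = Y
    · rw [if_pos hX, if_pos]
      · simp
      · intro b _ a hab
        rw [← hab, ← hX]
    · rw [if_neg hX, if_neg, mul_zero]
      intro h
      apply hX
      funext a
      exact h (ι a) (mem_univ _) a rfl
  simp_rw [h3]
  have h4 := Finset.prod_univ_sum (fun _ : B => (univ : Finset U)) (fun b x =>
    m x * if ∀ a, ι a = b → x = Y a then (1 : ℝ) else 0)
  rw [Fintype.piFinset_univ] at h4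
  rw [← h4]
  have h5 : ∀ b, b ∉ univ.image ι → ∑ x, (m x * if ∀ a, ι a = b → x = Y a then (1 : ℝ) else 0) =
      1 := by
    intro b hb
    refine (Finset.sum_congr rfl fun x _ => ?_).trans h1
    rw [if_pos, mul_one]
    intro a hab
    exact absurd (mem_image.2 ⟨a, mem_univ _, hab⟩) hb
  rw [← Finset.prod_subset (Finset.subset_univ (univ.image ι)) fun b _ hb => h5 b hb,
    Finset.prod_image fun a _ b _ h => hι h]
  refine Finset.prod_congr rfl fun a _ => ?_
  rw [Finset.sum_eq_single (Y a)]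
  · rw [if_pos, mul_one]
    intro a' ha'
    rw [hι ha']
  · intro x _ hx
    rw [if_neg, mul_zero]
    intro h
    exact hx (h a rfl)
  · intro hn
    exact absurd (mem_univ _) hn

theorem prod_marginal_two {m : U → ℝ} (h1 : ∑ x, m x = 1) {b c : B} (hbc : b ≠ c)
    (F : U → U → ℝ) :
    ∑ X : B → U, (∏ b, m (X b)) * F (X b) (X c) = ∑ x, ∑ y, m x * m y * F x y := by
  have hι : Function.Injective (fun a : Bool => if a then c else b) := by
    intro x y h
    cases x <;> cases y <;> simp_all
  have h := prod_marginal h1 hι (fun Y => F (Y false) (Y true))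
  simp only [Bool.false_eq_true, if_false, if_true] at h
  rw [h, ← Fintype.sum_prod_type' (f := fun x y : U => m x * m y * F x y)]
  refine Fintype.sum_equiv (Equiv.boolArrowEquivProd U) _ _ fun Y => ?_
  simp only [Fintype.prod_bool, Equiv.boolArrowEquivProd, Equiv.coe_fn_mk]
  ring

theorem prod_total {m : U → ℝ} (h1 : ∑ x, m x = 1) : ∑ X : B → U, ∏ b, m (X b) = 1 := by
  have h := prod_marginal (B := B) h1 (ι := (Empty.elim : Empty → B)) (fun x => x.elim) fun _ => 1
  simpa using h

end marg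

section graph

variable {V : Type} [Fintype V] [DecidableEq V] {G : SimpleGraph V} {s : V → Bool}

open Classical in
theorem edgeDensity_eq {n : ℕ} (Γ : SimpleGraph (Fin n)) :
    edgeDensity Γ = (∑ i, ∑ j, if Γ.Adj i j then (1 : ℝ) else 0) / (n : ℝ) ^ 2 := by
  unfold edgeDensity
  rw [Nat.card_eq_fintype_card (α := Fin n), Fintype.card_fin]
  congr 1
  rw [Nat.card_eq_fintype_card, ← SimpleGraph.edgeFinset_card]
  have h3 := Γ.sum_degrees_eq_twice_card_edges
  have h4 : ((∑ u, Γ.degree u : ℕ) : ℝ) = ((2 * Γ.edgeFinset.card : ℕ) : ℝ) := by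
    rw [h3]
  push_cast at h4
  rw [← h4]
  refine Finset.sum_congr rfl fun u _ => ?_
  rw [Finset.sum_boole, ← SimpleGraph.card_neighborFinset_eq_degree]
  congr 2
  ext v
  simp

open Classical in
theorem homDensity_eq (hs : ∀ u v, G.Adj u v → s u ≠ s v) {n : ℕ} (Γ : SimpleGraph (Fin n)) :
    homDensity G Γ = (∑ z : V → Fin n, ∏ e ∈ sideEdges G s,
      if Γ.Adj (z e.1) (z e.2) then (1 : ℝ) else 0) / (n : ℝ) ^ Fintype.card V := by
  unfold homDensity
  rw [Nat.card_eq_fintype_card (α := Fin n), Fintype.card_fin,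
    Nat.card_eq_fintype_card (α := V)]
  congr 1
  have h1 : ∀ z : V → Fin n, (∏ e ∈ sideEdges G s, if Γ.Adj (z e.1) (z e.2) then (1 : ℝ) else 0)
      = if (∀ e ∈ sideEdges G s, Γ.Adj (z e.1) (z e.2)) then 1 else 0 := by
    intro z
    rw [Finset.prod_ite_zero]
    simp
  simp_rw [h1]
  rw [Finset.sum_boole]
  congr 1
  rw [← Fintype.card_subtype, ← Nat.card_eq_fintype_card]
  refine Nat.card_congr ⟨fun f => ⟨fun v => f v, ?_⟩, fun z => ⟨fun v => z.1 v, ?_⟩, ?_, ?_⟩
  · intro e he
    exact f.map_rel (mem_sideEdges.1 he).1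
  · intro u v huv
    have h3 := hs u v huv
    cases hu : s u
    · cases hv : s v
      · exact absurd (hu.trans hv.symm) h3
      · exact z.2 (u, v) (mem_sideEdges.2 ⟨huv, hu, hv⟩)
    · cases hv : s v
      · exact (z.2 (v, u) (mem_sideEdges.2 ⟨huv.symm, hv, hu⟩)).symm
      · exact absurd (hu.trans hv.symm) h3
  · intro f
    rfl
  · intro z
    rfl

/-- the random graph -/
def rg {n : ℕ} (ω : Sym2 (Fin n) → Bool) : SimpleGraph (Fin n) where
  Adj i j := i ≠ j ∧ ω s(i, j) = true
  symm := ⟨fun i j h => ⟨h.1.symm, by rw [Sym2.eq_swap]; exact h.2⟩⟩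
  loopless := ⟨fun _ h => h.1 rfl⟩

open Classical in
/-- **The random graph.** -/
theorem stage_one (hs : ∀ u v, G.Adj u v → s u ≠ s v)
    (hG : ∀ (X : Type) [Finite X] [Nonempty X] (Γ : SimpleGraph X),
      edgeDensity Γ ^ Nat.card G.edgeSet ≤ homDensity G Γ) {n : ℕ} [NeZero n]
    (K : Fin n → Fin n → ℝ) (hK : ∀ i j, K i j = K j i) (h0 : ∀ i j, 0 ≤ K i j)
    (h1 : ∀ i j, K i j ≤ 1) :
    ((∑ i, ∑ j, if i = j then 0 else K i j) / (n : ℝ) ^ 2) ^ (sideEdges G s).card ≤
      (∑ z : V → Fin n, if Function.Injective z then ∏ e ∈ sideEdges G s, K (z e.1) (z e.2)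
        else 1) / (n : ℝ) ^ Fintype.card V := by
  have hn : (0 : ℝ) < n := by exact_mod_cast NeZero.pos n
  set q : Sym2 (Fin n) → ℝ := Sym2.lift ⟨K, hK⟩ with hq
  have hq0 : ∀ i, 0 ≤ q i := fun i => Sym2.ind (fun a b => h0 a b) i
  have hq1 : ∀ i, q i ≤ 1 := fun i => Sym2.ind (fun a b => h1 a b) i
  have hw := bw_nonneg hq0 hq1
  have hwt := bw_total q
  have hind : ∀ (ω : Sym2 (Fin n) → Bool) (i j : Fin n), (if (rg ω).Adj i j then (1 : ℝ) else 0) =
      if i = j then 0 else if ω s(i, j) then 1 else 0 := by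
    intro ω i j
    unfold rg
    by_cases hij : i = j
    · simp [hij]
    · simp [hij]
  have hp : ∑ ω, bw q ω * edgeDensity (rg ω) =
      (∑ i, ∑ j, if i = j then 0 else K i j) / (n : ℝ) ^ 2 := by
    simp_rw [edgeDensity_eq, hind, mul_div_assoc', ← Finset.sum_div, Finset.mul_sum]
    congr 1
    rw [Finset.sum_comm]
    refine Finset.sum_congr rfl fun i _ => ?_
    rw [Finset.sum_comm]
    refine Finset.sum_congr rfl fun j _ => ?_
    by_cases hij : i = j
    · simp [hij]
    · simp only [hij, if_false]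
      have := bw_prod q {s(i, j)}
      rw [Finset.prod_singleton] at this
      simp_rw [Finset.prod_singleton] at this
      exact this
  rw [← hp]
  refine (Real.pow_arith_mean_le_arith_mean_pow univ (bw q) (fun ω => edgeDensity (rg ω))
    (fun ω _ => hw ω) hwt (fun ω _ => ?_) _).trans ?_
  · rw [edgeDensity_eq]
    positivity
  · have hstep : ∀ ω, bw q ω * edgeDensity (rg ω) ^ (sideEdges G s).card ≤
        bw q ω * homDensity G (rg ω) := by
      intro ω
      rw [card_sideEdges G s hs]
      exact mul_le_mul_of_nonneg_left (hG (Fin n) (rg ω)) (hw ω)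
    refine (Finset.sum_le_sum fun ω _ => hstep ω).trans ?_
    simp_rw [homDensity_eq hs, mul_div_assoc', ← Finset.sum_div, Finset.mul_sum]
    rw [Finset.sum_comm]
    refine div_le_div_of_nonneg_right (Finset.sum_le_sum fun z _ => ?_) (by positivity)
    simp_rw [hind]
    by_cases hz : Function.Injective z
    · rw [if_pos hz]
      refine le_of_eq ?_
      have hinj : Set.InjOn (fun e : V × V => s(z e.1, z e.2)) (sideEdges G s) := by
        rintro ⟨u, v⟩ he ⟨u', v'⟩ he' h
        have he1 := mem_sideEdges.1 (Finset.mem_coe.1 he)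
        have he2 := mem_sideEdges.1 (Finset.mem_coe.1 he')
        simp only at he1 he2 h
        rcases Sym2.eq_iff.1 h with ⟨h1, h2⟩ | ⟨h1, h2⟩
        · exact Prod.ext (hz h1) (hz h2)
        · have h3 := hz h1
          rw [h3, he2.2.2] at he1
          exact absurd he1.2.1 (by simp)
      have e1 := bw_prod q ((sideEdges G s).image fun e => s(z e.1, z e.2))
      simp_rw [Finset.prod_image hinj] at e1
      rw [← show ∏ e ∈ sideEdges G s, q s(z e.1, z e.2) = ∏ e ∈ sideEdges G s, K (z e.1) (z e.2)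
        from rfl, ← e1]
      refine Finset.sum_congr rfl fun ω _ => ?_
      congr 1
      refine Finset.prod_congr rfl fun e he => ?_
      rw [if_neg]
      intro h
      have h3 := (mem_sideEdges.1 he)
      exact h3.1.ne (hz h)
    · rw [if_neg hz]
      refine (Finset.sum_le_sum fun ω _ => mul_le_of_le_one_right (hw ω) ?_).trans hwt.le
      refine Finset.prod_le_one (fun e _ => ?_) fun e _ => ?_
      · split_ifs <;> norm_num
      · split_ifs <;> norm_num

theorem collision_bound {n : ℕ} [NeZero n] :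
    (∑ z : V → Fin n, if Function.Injective z then (0 : ℝ) else 1) / (n : ℝ) ^ Fintype.card V ≤
      (Fintype.card V : ℝ) ^ 2 / n := by
  classical
  have hn : (0 : ℝ) < n := by exact_mod_cast NeZero.pos n
  have h1 : ∀ z : V → Fin n, (if Function.Injective z then (0 : ℝ) else 1) ≤
      ∑ u : V, ∑ v : V, if u ≠ v ∧ z u = z v then (1 : ℝ) else 0 := by
    intro z
    have hnn : ∀ u v : V, (0 : ℝ) ≤ if u ≠ v ∧ z u = z v then (1 : ℝ) else 0 := by
      intro u v
      split_ifs <;> norm_num
    by_cases hz : Function.Injective z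
    · rw [if_pos hz]
      exact Finset.sum_nonneg fun u _ => Finset.sum_nonneg fun v _ => hnn u v
    · rw [if_neg hz]
      unfold Function.Injective at hz
      push Not at hz
      obtain ⟨u, v, huv, hne⟩ := hz
      calc (1 : ℝ) = if u ≠ v ∧ z u = z v then (1 : ℝ) else 0 := by rw [if_pos ⟨hne, huv⟩]
        _ ≤ ∑ v : V, if u ≠ v ∧ z u = z v then (1 : ℝ) else 0 :=
          Finset.single_le_sum (f := fun v => if u ≠ v ∧ z u = z v then (1 : ℝ) else 0)
            (fun v _ => hnn u v) (mem_univ v)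
        _ ≤ _ := Finset.single_le_sum
          (f := fun u => ∑ v : V, if u ≠ v ∧ z u = z v then (1 : ℝ) else 0)
            (fun u _ => Finset.sum_nonneg fun v _ => hnn u v) (mem_univ u)
  have h2 : ∀ u v : V, ∑ z : V → Fin n, (if u ≠ v ∧ z u = z v then (1 : ℝ) else 0) /
      (n : ℝ) ^ Fintype.card V ≤ 1 / n := by
    intro u v
    by_cases huv : u = v
    · simp only [huv, ne_eq, not_true_eq_false, false_and, if_false, zero_div, Finset.sum_const_zero]
      positivity
    · have hm1 : ∑ _x : Fin n, 1 / (n : ℝ) = 1 := by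
        rw [Finset.sum_const, Finset.card_univ, Fintype.card_fin, nsmul_eq_mul]
        field_simp
      have h3 := prod_marginal_two (B := V) hm1 huv (fun x y => if x = y then (1 : ℝ) else 0)
      have h4 : ∑ z : V → Fin n, (if u ≠ v ∧ z u = z v then (1 : ℝ) else 0) /
          (n : ℝ) ^ Fintype.card V =
          ∑ X : V → Fin n, (∏ _b : V, 1 / (n : ℝ)) * if X u = X v then (1 : ℝ) else 0 := by
        refine Finset.sum_congr rfl fun z _ => ?_
        rw [Finset.prod_const, Finset.card_univ]
        by_cases hz : z u = z v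
        · rw [if_pos ⟨huv, hz⟩, if_pos hz, one_div, one_div, inv_pow, mul_one]
        · rw [if_neg fun h => hz h.2, if_neg hz, zero_div, mul_zero]
      rw [h4, h3]
      simp only [mul_ite, mul_one, mul_zero, Finset.sum_ite_eq, mem_univ, if_true]
      rw [Finset.sum_const, Finset.card_univ, Fintype.card_fin, nsmul_eq_mul]
      refine le_of_eq ?_
      field_simp
  calc (∑ z : V → Fin n, if Function.Injective z then (0 : ℝ) else 1) / (n : ℝ) ^ Fintype.card V
      ≤ (∑ z : V → Fin n, ∑ u : V, ∑ v : V, if u ≠ v ∧ z u = z v then (1 : ℝ) else 0) /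
        (n : ℝ) ^ Fintype.card V :=
        div_le_div_of_nonneg_right (Finset.sum_le_sum fun z _ => h1 z) (by positivity)
    _ = ∑ u : V, ∑ v : V, ∑ z : V → Fin n, (if u ≠ v ∧ z u = z v then (1 : ℝ) else 0) /
        (n : ℝ) ^ Fintype.card V := by
        rw [Finset.sum_div]
        simp_rw [Finset.sum_div]
        rw [Finset.sum_comm]
        refine Finset.sum_congr rfl fun u _ => ?_
        rw [Finset.sum_comm]
    _ ≤ ∑ u : V, ∑ v : V, 1 / (n : ℝ) :=
        Finset.sum_le_sum fun u _ => Finset.sum_le_sum fun v _ => h2 u v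
    _ = (Fintype.card V : ℝ) ^ 2 / n := by
        simp only [Finset.sum_const, Finset.card_univ, nsmul_eq_mul]
        ring

/-- **The `W`-random graph.** -/
theorem stage_two (hs : ∀ u v, G.Adj u v → s u ≠ s v)
    (hG : ∀ (X : Type) [Finite X] [Nonempty X] (Γ : SimpleGraph X),
      edgeDensity Γ ^ Nat.card G.edgeSet ≤ homDensity G Γ) {n : ℕ} [NeZero n]
    {U : Type} [Fintype U] {m : U → ℝ} {W : U → U → ℝ} (hm : ∀ x, 0 ≤ m x) (hm1 : ∑ x, m x = 1)
    (hW0 : ∀ x y, 0 ≤ W x y) (hW1 : ∀ x y, W x y ≤ 1) (hWs : ∀ x y, W x y = W y x) :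
    ((1 - 1 / (n : ℝ)) * ∑ x, ∑ y, m x * m y * W x y) ^ (sideEdges G s).card ≤
      ∑ z : V → U, (∏ v, m (z v)) * ∏ e ∈ sideEdges G s, W (z e.1) (z e.2) +
        (Fintype.card V : ℝ) ^ 2 / n := by
  classical
  have hn : (0 : ℝ) < n := by exact_mod_cast NeZero.pos n
  set p := ∑ x, ∑ y, m x * m y * W x y with hp
  set t := ∑ z : V → U, (∏ v, m (z v)) * ∏ e ∈ sideEdges G s, W (z e.1) (z e.2) with ht
  have ht0 : 0 ≤ t := Finset.sum_nonneg fun z _ =>
    mul_nonneg (Finset.prod_nonneg fun v _ => hm _) (Finset.prod_nonneg fun e _ => hW0 _ _)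
  set μ : (Fin n → U) → ℝ := fun X => ∏ i, m (X i) with hμ
  have hμ0 : ∀ X, 0 ≤ μ X := fun X => Finset.prod_nonneg fun i _ => hm _
  have hμ1 : ∑ X, μ X = 1 := prod_total hm1
  have hmean : ∑ X, μ X * ((∑ i, ∑ j, if i = j then 0 else W (X i) (X j)) / (n : ℝ) ^ 2) =
      (1 - 1 / (n : ℝ)) * p := by
    have e1 : ∀ i j : Fin n, ∑ X, μ X * (if i = j then 0 else W (X i) (X j)) =
        if i = j then 0 else p := by
      intro i j
      by_cases hij : i = j
      · simp [hij]
      · simp only [hij, if_false]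
        exact prod_marginal_two hm1 hij W
    have e2 : ∑ X, μ X * ((∑ i, ∑ j, if i = j then 0 else W (X i) (X j)) / (n : ℝ) ^ 2) =
        (∑ i, ∑ j, ∑ X, μ X * (if i = j then 0 else W (X i) (X j))) / (n : ℝ) ^ 2 := by
      simp_rw [mul_div_assoc', ← Finset.sum_div, Finset.mul_sum]
      congr 1
      rw [Finset.sum_comm]
      refine Finset.sum_congr rfl fun i _ => ?_
      rw [Finset.sum_comm]
    rw [e2]
    simp_rw [e1]
    have e3 : ∀ i : Fin n, ∑ j, (if i = j then 0 else p) = n * p - p := by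
      intro i
      have : ∀ j, (if i = j then 0 else p) = p - (if i = j then p else 0) := by
        intro j
        split_ifs <;> ring
      simp_rw [this]
      rw [Finset.sum_sub_distrib, Finset.sum_const, Finset.card_univ, Fintype.card_fin,
        nsmul_eq_mul, Finset.sum_ite_eq, if_pos (mem_univ _)]
    simp_rw [e3]
    rw [Finset.sum_const, Finset.card_univ, Fintype.card_fin, nsmul_eq_mul]
    field_simp
  rw [← hmean]
  refine (Real.pow_arith_mean_le_arith_mean_pow univ μ _ (fun X _ => hμ0 X) hμ1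
    (fun X _ => ?_) _).trans ?_
  · refine div_nonneg (Finset.sum_nonneg fun i _ => Finset.sum_nonneg fun j _ => ?_) (by positivity)
    split_ifs
    · exact le_rfl
    · exact hW0 _ _
  have hstep : ∀ X, μ X * ((∑ i, ∑ j, if i = j then 0 else W (X i) (X j)) / (n : ℝ) ^ 2) ^
      (sideEdges G s).card ≤ μ X * ((∑ z : V → Fin n, if Function.Injective z then
        ∏ e ∈ sideEdges G s, W (X (z e.1)) (X (z e.2)) else 1) / (n : ℝ) ^ Fintype.card V) :=
    fun X => mul_le_mul_of_nonneg_left (stage_one hs hG (fun i j => W (X i) (X j))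
      (fun i j => hWs _ _) (fun i j => hW0 _ _) (fun i j => hW1 _ _)) (hμ0 X)
  refine (Finset.sum_le_sum fun X _ => hstep X).trans ?_
  have e4 : ∑ X, μ X * ((∑ z : V → Fin n, if Function.Injective z then
        ∏ e ∈ sideEdges G s, W (X (z e.1)) (X (z e.2)) else 1) / (n : ℝ) ^ Fintype.card V) =
      (∑ z : V → Fin n, ∑ X, μ X * (if Function.Injective z then
        ∏ e ∈ sideEdges G s, W (X (z e.1)) (X (z e.2)) else 1)) / (n : ℝ) ^ Fintype.card V := by
    simp_rw [mul_div_assoc', ← Finset.sum_div, Finset.mul_sum]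
    rw [Finset.sum_comm]
  have e5 : ∀ z : V → Fin n, ∑ X, μ X * (if Function.Injective z then
        ∏ e ∈ sideEdges G s, W (X (z e.1)) (X (z e.2)) else 1) ≤
      t + if Function.Injective z then 0 else 1 := by
    intro z
    by_cases hz : Function.Injective z
    · simp only [hz, if_true, add_zero]
      exact (prod_marginal hm1 hz
        (fun Y => ∏ e ∈ sideEdges G s, W (Y e.1) (Y e.2))).le
    · simp only [hz, if_false, mul_one, hμ1]
      linarith
  rw [e4]
  refine (div_le_div_of_nonneg_right (Finset.sum_le_sum fun z _ => e5 z) (by positivity)).trans ?_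
  rw [Finset.sum_add_distrib, add_div]
  refine add_le_add (le_of_eq ?_) collision_bound
  rw [Finset.sum_const, Finset.card_univ, Fintype.card_fun, Fintype.card_fin, nsmul_eq_mul]
  push_cast
  field_simp

/-- **Symmetric kernels.** -/
theorem wsid_of_ordinary (hs : ∀ u v, G.Adj u v → s u ≠ s v)
    (hG : ∀ (X : Type) [Finite X] [Nonempty X] (Γ : SimpleGraph X),
      edgeDensity Γ ^ Nat.card G.edgeSet ≤ homDensity G Γ) : WSid (sideEdges G s) := by
  classical
  intro U _ m W hm hm1 hW hWs
  -- bounded kernels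
  have hbdd : ∀ W : U → U → ℝ, (∀ x y, 0 ≤ W x y) → (∀ x y, W x y ≤ 1) →
      (∀ x y, W x y = W y x) → (∑ x, ∑ y, m x * m y * W x y) ^ (sideEdges G s).card ≤
        ∑ z : V → U, (∏ v, m (z v)) * ∏ e ∈ sideEdges G s, W (z e.1) (z e.2) := by
    intro W hW hW1 hWs
    set p := ∑ x, ∑ y, m x * m y * W x y with hp
    set t := ∑ z : V → U, (∏ v, m (z v)) * ∏ e ∈ sideEdges G s, W (z e.1) (z e.2) with ht
    have hinv : Filter.Tendsto (fun n : ℕ => 1 / ((n : ℝ) + 1)) Filter.atTop (nhds 0) :=
      tendsto_one_div_add_atTop_nhds_zero_nat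
    have hL : Filter.Tendsto (fun n : ℕ => ((1 - 1 / ((n : ℝ) + 1)) * p) ^ (sideEdges G s).card)
        Filter.atTop (nhds (((1 - 0) * p) ^ (sideEdges G s).card)) :=
      ((tendsto_const_nhds.sub hinv).mul_const p).pow _
    have hR : Filter.Tendsto (fun n : ℕ => t + (Fintype.card V : ℝ) ^ 2 * (1 / ((n : ℝ) + 1)))
        Filter.atTop (nhds (t + (Fintype.card V : ℝ) ^ 2 * 0)) :=
      tendsto_const_nhds.add (hinv.const_mul _)
    have h := le_of_tendsto_of_tendsto' hL hR fun n => by
      have := stage_two (n := n + 1) hs hG hm hm1 hW hW1 hWs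
      push_cast at this
      rw [div_eq_mul_one_div ((Fintype.card V : ℝ) ^ 2)] at this
      exact this
    simpa using h
  set C : ℝ := 1 + ∑ x, ∑ y, W x y with hC
  have hsum0 : 0 ≤ ∑ x, ∑ y, W x y :=
    Finset.sum_nonneg fun x _ => Finset.sum_nonneg fun y _ => hW x y
  have hC0 : 0 < C := by linarith
  have hWC : ∀ x y, W x y ≤ C := by
    intro x y
    have h1 : W x y ≤ ∑ y, W x y :=
      Finset.single_le_sum (f := fun y => W x y) (fun y _ => hW x y) (mem_univ y)
    have h2 : ∑ y, W x y ≤ ∑ x, ∑ y, W x y :=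
      Finset.single_le_sum (f := fun x => ∑ y, W x y)
        (fun x _ => Finset.sum_nonneg fun y _ => hW x y) (mem_univ x)
    linarith
  have key := hbdd (fun x y => W x y / C) (fun x y => div_nonneg (hW x y) hC0.le)
    (fun x y => (div_le_one hC0).2 (hWC x y)) (fun x y => by rw [hWs x y])
  have e1 : ∑ x, ∑ y, m x * m y * (W x y / C) = (∑ x, ∑ y, m x * m y * W x y) / C := by
    simp_rw [mul_div_assoc', ← Finset.sum_div]
  have e2 : ∑ z : V → U, (∏ v, m (z v)) * ∏ e ∈ sideEdges G s, W (z e.1) (z e.2) / C =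
      (∑ z : V → U, (∏ v, m (z v)) * ∏ e ∈ sideEdges G s, W (z e.1) (z e.2)) /
        C ^ (sideEdges G s).card := by
    simp_rw [Finset.prod_div_distrib, Finset.prod_const, mul_div_assoc', ← Finset.sum_div]
  rw [e1, e2, div_pow] at key
  exact (div_le_div_iff_of_pos_right (pow_pos hC0 _)).1 key

end graph

end Vale.Agent.P050.H398
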