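import Vale.Agent.P050.H398.Cond
import Vale.Agent.P050.Cart.Product

/-!
The reduction: the two-sided Sidorenko inequality follows from couplings of the edge laws with the
hypercontractive inequality.
-/

set_option linter.unusedSectionVars false

namespace Vale.Agent.P050.H398

open Finset Vale.Agent.P050.Cart Vale.Agent.P050.Lev

section gf

variable {U : Type} [Fintype U]

theorem Gf_eq (e n : ℝ) (L r : U × U → ℝ) : Gf e n L r =
    - e * ∑ q, r q * Real.log (r q) + (e - n) *
      (∑ x, (∑ y, r (x, y)) * Real.log (∑ y, r (x, y)) +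
      ∑ y, (∑ x, r (x, y)) * Real.log (∑ x, r (x, y))) + ∑ q, r q * L q := by
  unfold Gf
  have e1 : ent r (fun p => p) = - ∑ q, r q * Real.log (r q) := by
    rw [ent_id' r, neg_neg]
  have e2 : ent r (fun p : U × U => p.1) =
      - ∑ x, (∑ y, r (x, y)) * Real.log (∑ y, r (x, y)) := by
    unfold ent
    simp_rw [mar_prod_fst]
  have e3 : ent r (fun p : U × U => p.2) =
      - ∑ y, (∑ x, r (x, y)) * Real.log (∑ x, r (x, y)) := by
    unfold ent
    simp_rw [mar_prod_snd]
  rw [e1, e2, e3]
  ring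

theorem sum_lin (r : U × U → ℝ) (e n : ℝ) (W : U → U → ℝ) (f g : U → ℝ) :
    ∑ q, r q * (e * W q.1 q.2 + n * f q.1 + n * g q.2) =
      e * ∑ q, r q * W q.1 q.2 + n * ∑ x, (∑ y, r (x, y)) * f x +
        n * ∑ y, (∑ x, r (x, y)) * g y := by
  have h1 : ∑ x, (∑ y, r (x, y)) * f x = ∑ q : U × U, r q * f q.1 := by
    rw [Fintype.sum_prod_type]
    simp_rw [Finset.sum_mul]
  have h2 : ∑ y, (∑ x, r (x, y)) * g y = ∑ q : U × U, r q * g q.2 := by
    rw [Fintype.sum_prod_type, Finset.sum_comm]
    simp_rw [Finset.sum_mul]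
  rw [h1, h2, Finset.mul_sum, Finset.mul_sum, Finset.mul_sum, ← Finset.sum_add_distrib,
    ← Finset.sum_add_distrib]
  refine Finset.sum_congr rfl fun q _ => ?_
  ring

end gf

variable {V : Type} [Fintype V] [DecidableEq V]

/-- **Reduction.** For a bipartite graph with `n` vertices on each side, the two-sided Sidorenko
inequality only needs couplings of the edge laws `π` with `I(w; x y) ≥ θ (I(w; x) + I(w; y))` for
all `w`, where `θ = 1 - n / e`. -/
theorem ksid_of_hc {E : Finset (V × V)} {side : V → Bool}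
    (hE : ∀ e ∈ E, side e.1 = false ∧ side e.2 = true) {n : ℕ}
    (hn : ∀ b, (univ.filter fun v => side v = b).card = n) (hnE : n ≤ E.card)
    (hE0 : 0 < E.card) {θ : ℝ} (hθ : θ * E.card ≤ E.card - n)
    (hG : ∀ (U : Type) [Fintype U] (c : Bool → U → ℝ) (π : U → U → ℝ), Base c π → HC θ π →
      ∃ ν : (V → U) → ℝ, SidLaw E side c π ν) : KSid E side := by
  classical
  refine ⟨hE, ?_⟩
  intro U _ m W hm hm1 hW
  set p : ℝ := ∑ x, ∑ y, m false x * m true y * W x y with hp
  have hterm0 : ∀ x y, 0 ≤ m false x * m true y * W x y := fun x y =>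
    mul_nonneg (mul_nonneg (hm _ _) (hm _ _)) (hW _ _)
  have hp0 : 0 ≤ p := Finset.sum_nonneg fun x _ => Finset.sum_nonneg fun y _ => hterm0 x y
  have hq0 : ∀ z : V → U, 0 ≤ (∏ v, m (side v) (z v)) * ∏ e ∈ E, W (z e.1) (z e.2) := fun z =>
    mul_nonneg (Finset.prod_nonneg fun v _ => hm _ _) (Finset.prod_nonneg fun e _ => hW _ _)
  rcases hp0.eq_or_lt with hp0' | hppos
  · rw [← hp0', zero_pow hE0.ne']
    exact Finset.sum_nonneg fun z _ => hq0 z
  -- the compact set of laws
  set K : Set (U × U → ℝ) := stdSimplex ℝ (U × U) ∩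
    {r | ∀ q : U × U, m false q.1 * m true q.2 * W q.1 q.2 = 0 → r q = 0} with hK
  have hKc : IsCompact K := by
    refine (isCompact_stdSimplex ℝ (U × U)).inter_right ?_
    have : {r : U × U → ℝ | ∀ q : U × U, m false q.1 * m true q.2 * W q.1 q.2 = 0 → r q = 0} =
        ⋂ q : U × U, ⋂ (_ : m false q.1 * m true q.2 * W q.1 q.2 = 0), {r | r q = 0} := by
      ext r
      simp
    rw [this]
    exact isClosed_iInter fun q => isClosed_iInter fun _ =>
      isClosed_eq (continuous_apply q) continuous_const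
  set r0 : U × U → ℝ := fun q => m false q.1 * m true q.2 * W q.1 q.2 / p with hr0
  have hr0s : ∑ q, r0 q = 1 := by
    simp only [hr0]
    rw [← Finset.sum_div, Fintype.sum_prod_type]
    exact div_self hppos.ne'
  have hr00 : ∀ q, 0 ≤ r0 q := fun q => div_nonneg (hterm0 _ _) hp0
  have hr0K : r0 ∈ K := by
    refine ⟨⟨hr00, hr0s⟩, fun q hq => ?_⟩
    simp only [hr0]
    rw [hq, zero_div]
  set L : U × U → ℝ := fun q => (E.card : ℝ) * Real.log (W q.1 q.2) +
    (n : ℝ) * Real.log (m false q.1) + (n : ℝ) * Real.log (m true q.2) with hL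
  obtain ⟨r, hrK, hrmax⟩ := hKc.exists_isMaxOn ⟨r0, hr0K⟩
    (continuous_Gf (E.card : ℝ) (n : ℝ) L).continuousOn
  have hr_nn : ∀ q, 0 ≤ r q := hrK.1.1
  have hr_s : ∑ q, r q = 1 := hrK.1.2
  have hr_z := hrK.2
  have hEpos : (0 : ℝ) < E.card := by exact_mod_cast hE0
  have hnE' : (n : ℝ) ≤ E.card := by exact_mod_cast hnE
  have hHC : HC θ (fun x y => r (x, y)) := by
    refine hc_of_max hEpos (n := (n : ℝ)) (L := L) (fun r' h0 h1 h2 => ?_) hθ
    exact hrmax ⟨⟨h0, h1⟩, fun q hq => h2 q (hr_z q hq)⟩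
  set c : Bool → U → ℝ := fun b => if b = false then fun x => ∑ y, r (x, y) else
    fun y => ∑ x, r (x, y) with hc
  have hcf : c false = fun x => ∑ y, r (x, y) := rfl
  have hct : c true = fun y => ∑ x, r (x, y) := rfl
  have hB : Base c (fun x y => r (x, y)) :=
    { m0 := by
        intro b x
        cases b
        · exact Finset.sum_nonneg fun y _ => hr_nn _
        · exact Finset.sum_nonneg fun y _ => hr_nn _
      m1 := by
        intro b
        cases b
        · rw [hcf, ← Fintype.sum_prod_type' (f := fun x y => r (x, y))]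
          exact hr_s
        · rw [hct, Finset.sum_comm, ← Fintype.sum_prod_type' (f := fun x y => r (x, y))]
          exact hr_s
      pi0 := fun x y => hr_nn _
      row := fun x => rfl
      col := fun y => rfl }
  obtain ⟨ν, hν⟩ := hG U c (fun x y => r (x, y)) hB hHC
  have hcm : ∀ b x, c b x ≠ 0 → m b x ≠ 0 := by
    intro b x h3 h4
    apply h3
    cases b
    · show ∑ y, r (x, y) = 0
      exact Finset.sum_eq_zero fun y _ => hr_z _ (by simp [h4])
    · show ∑ y, r (y, x) = 0
      exact Finset.sum_eq_zero fun y _ => hr_z _ (by simp [h4])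
  have hsupp : ∀ z, ν z ≠ 0 → (∀ v, m (side v) (z v) ≠ 0) ∧ ∀ e ∈ E, W (z e.1) (z e.2) ≠ 0 := by
    intro z hz
    refine ⟨fun v => hcm _ _ (hν.law_ne_zero hz v), fun e he h3 => ?_⟩
    exact hν.edge_ne_zero hz he (hr_z _ (by simp [h3]))
  obtain ⟨hgibbs, hSpos⟩ := gibbs_log (p := ν)
    (q := fun z => (∏ v, m (side v) (z v)) * ∏ e ∈ E, W (z e.1) (z e.2)) hν.nonneg hq0
    (fun z hz => by
      by_contra hcon
      obtain ⟨h3, h4⟩ := hsupp z hcon
      rcases mul_eq_zero.1 hz with h5 | h5
      · obtain ⟨v, -, h6⟩ := Finset.prod_eq_zero_iff.1 h5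
        exact h3 v h6
      · obtain ⟨e, he, h6⟩ := Finset.prod_eq_zero_iff.1 h5
        exact h4 e he h6) hν.total
  -- the value at `r`
  set A := ∑ q, r q * Real.log (r q) with hA
  set Bf := ∑ x, (∑ y, r (x, y)) * Real.log (∑ y, r (x, y)) with hBf
  set Bt := ∑ y, (∑ x, r (x, y)) * Real.log (∑ x, r (x, y)) with hBt
  set Mf := ∑ x, (∑ y, r (x, y)) * Real.log (m false x) with hMf
  set Mt := ∑ y, (∑ x, r (x, y)) * Real.log (m true y) with hMt
  set Wl := ∑ q : U × U, r q * Real.log (W q.1 q.2) with hWl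
  have hGr : Gf (E.card : ℝ) (n : ℝ) L r = - (E.card : ℝ) * A + ((E.card : ℝ) - n) * (Bf + Bt) +
      ((E.card : ℝ) * Wl + n * Mf + n * Mt) := by
    rw [Gf_eq, hL, sum_lin r (E.card : ℝ) (n : ℝ) (fun x y => Real.log (W x y))
      (fun x => Real.log (m false x)) (fun y => Real.log (m true y))]
  have hinf : Cart.inf c (fun x y => r (x, y)) = A - Bf - Bt := by
    unfold Cart.inf
    simp_rw [mul_sub, Finset.sum_sub_distrib]
    have e1 : ∑ x, ∑ y, r (x, y) * Real.log (r (x, y)) = A := by
      rw [hA, Fintype.sum_prod_type]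
    have e2 : ∑ x, ∑ y, r (x, y) * Real.log (c false x) = Bf := by
      rw [hBf]
      refine Finset.sum_congr rfl fun x _ => ?_
      rw [← Finset.sum_mul, hcf]
    have e3 : ∑ x, ∑ y, r (x, y) * Real.log (c true y) = Bt := by
      rw [hBt, Finset.sum_comm]
      refine Finset.sum_congr rfl fun y _ => ?_
      rw [← Finset.sum_mul, hct]
    rw [e1, e2, e3]
  have hmain : Gf (E.card : ℝ) (n : ℝ) L r ≤ ∑ z, ν z * (Real.log ((∏ v, m (side v) (z v)) *
      ∏ e ∈ E, W (z e.1) (z e.2)) - Real.log (ν z)) := by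
    have h3 : ∀ z, ν z * (Real.log ((∏ v, m (side v) (z v)) *
        ∏ e ∈ E, W (z e.1) (z e.2)) - Real.log (ν z))
        = ∑ v, ν z * Real.log (m (side v) (z v)) + ∑ e ∈ E, ν z * Real.log (W (z e.1) (z e.2))
          - (ν z * (Real.log (ν z) - ∑ v, Real.log (c (side v) (z v))) +
            ∑ v, ν z * Real.log (c (side v) (z v))) := by
      intro z
      by_cases hz : ν z = 0
      · simp [hz]
      obtain ⟨h4, h5⟩ := hsupp z hz
      rw [Real.log_mul (Finset.prod_ne_zero_iff.2 fun v _ => h4 v)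
        (Finset.prod_ne_zero_iff.2 h5), Real.log_prod (fun v _ => h4 v),
        Real.log_prod h5, ← Finset.mul_sum, ← Finset.mul_sum, ← Finset.mul_sum]
      ring
    simp_rw [h3]
    rw [Finset.sum_sub_distrib, Finset.sum_add_distrib, Finset.sum_add_distrib, Finset.sum_comm,
      Finset.sum_comm (t := E), Finset.sum_comm (s := univ) (t := univ)
      (f := fun z v => ν z * Real.log (c (side v) (z v)))]
    have h4 : ∑ e ∈ E, ∑ z, ν z * Real.log (W (z e.1) (z e.2)) = E.card * Wl := by
      rw [Finset.sum_congr rfl (g := fun _ => Wl), Finset.sum_const, nsmul_eq_mul]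
      intro e he
      rw [hν.edge e he (fun x y => Real.log (W x y)), hWl, Fintype.sum_prod_type]
    have h5 : ∑ v, ∑ z, ν z * Real.log (m (side v) (z v)) = n * Mf + n * Mt := by
      have h6 : ∀ v, ∑ z, ν z * Real.log (m (side v) (z v)) =
          (fun b => ∑ x, c b x * Real.log (m b x)) (side v) := fun v =>
        hν.vertex v (fun x => Real.log (m (side v) x))
      have h7 := sum_side side (fun b => ∑ x, c b x * Real.log (m b x))
      rw [hn, hn] at h7
      exact (Finset.sum_congr rfl fun v _ => h6 v).trans h7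
    have h6 : ∑ v, ∑ z, ν z * Real.log (c (side v) (z v)) = n * Bf + n * Bt := by
      have h6 : ∀ v, ∑ z, ν z * Real.log (c (side v) (z v)) =
          (fun b => ∑ x, c b x * Real.log (c b x)) (side v) := fun v =>
        hν.vertex v (fun x => Real.log (c (side v) x))
      have h7 := sum_side side (fun b => ∑ x, c b x * Real.log (c b x))
      rw [hn, hn] at h7
      exact (Finset.sum_congr rfl fun v _ => h6 v).trans h7
    have h7 : ∑ z, ν z * (Real.log (ν z) - ∑ v, Real.log (c (side v) (z v))) ≤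
        E.card * (A - Bf - Bt) := by
      rw [← hinf]
      exact hν.bound
    rw [h4, h5, h6, hGr]
    nlinarith
  -- the value at `r0`
  have h0le : (E.card : ℝ) * Real.log p ≤ Gf (E.card : ℝ) (n : ℝ) L r0 := by
    have hGr0 := Gf_eq (E.card : ℝ) (n : ℝ) L r0
    rw [show ∑ q, r0 q * L q = _ from sum_lin r0 (E.card : ℝ) (n : ℝ)
      (fun x y => Real.log (W x y)) (fun x => Real.log (m false x))
      (fun y => Real.log (m true y))] at hGr0
    have hW0 : ∑ q : U × U, r0 q * Real.log (W q.1 q.2) = ∑ q, r0 q * Real.log (r0 q) +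
        Real.log p - ∑ x, (∑ y, r0 (x, y)) * Real.log (m false x) -
        ∑ y, (∑ x, r0 (x, y)) * Real.log (m true y) := by
      have h1 : ∑ x, (∑ y, r0 (x, y)) * Real.log (m false x) =
          ∑ q : U × U, r0 q * Real.log (m false q.1) := by
        rw [Fintype.sum_prod_type]
        simp_rw [Finset.sum_mul]
      have h2 : ∑ y, (∑ x, r0 (x, y)) * Real.log (m true y) =
          ∑ q : U × U, r0 q * Real.log (m true q.2) := by
        rw [Fintype.sum_prod_type, Finset.sum_comm]
        simp_rw [Finset.sum_mul]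
      have h3 : Real.log p = ∑ q, r0 q * Real.log p := by
        rw [← Finset.sum_mul, hr0s, one_mul]
      rw [h1, h2, h3, ← Finset.sum_add_distrib, ← Finset.sum_sub_distrib,
        ← Finset.sum_sub_distrib]
      refine Finset.sum_congr rfl fun q _ => ?_
      by_cases h4 : r0 q = 0
      · rw [h4]; ring
      have h5 : m false q.1 * m true q.2 * W q.1 q.2 ≠ 0 := fun h => h4 (by
        simp only [hr0]
        rw [h, zero_div])
      have h6 : W q.1 q.2 ≠ 0 := right_ne_zero_of_mul h5
      have h7 : m false q.1 ≠ 0 := left_ne_zero_of_mul (left_ne_zero_of_mul h5)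
      have h8 : m true q.2 ≠ 0 := right_ne_zero_of_mul (left_ne_zero_of_mul h5)
      have h9 : Real.log (r0 q) = Real.log (m false q.1) + Real.log (m true q.2) +
          Real.log (W q.1 q.2) - Real.log p := by
        simp only [hr0]
        rw [Real.log_div h5 hppos.ne', Real.log_mul (mul_ne_zero h7 h8) h6, Real.log_mul h7 h8]
      rw [h9]
      ring
    have hgf := gibbs' (p := fun x => ∑ y, r0 (x, y)) (q := m false)
      (fun x => Finset.sum_nonneg fun y _ => hr00 _) (hm false)
      (fun x hx => Finset.sum_eq_zero fun y _ => by simp [hr0, hx])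
      (by rw [← Fintype.sum_prod_type' (f := fun x y => r0 (x, y))]; exact hr0s) (hm1 false).le
    have hgt := gibbs' (p := fun y => ∑ x, r0 (x, y)) (q := m true)
      (fun x => Finset.sum_nonneg fun y _ => hr00 _) (hm true)
      (fun x hx => Finset.sum_eq_zero fun y _ => by simp [hr0, hx])
      (by rw [Finset.sum_comm, ← Fintype.sum_prod_type' (f := fun x y => r0 (x, y))]; exact hr0s)
      (hm1 true).le
    rw [hGr0, hW0]
    have hd : (0 : ℝ) ≤ (E.card : ℝ) - n := sub_nonneg.2 hnE'
    have k1 := mul_le_mul_of_nonneg_left hgf hd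
    have k2 := mul_le_mul_of_nonneg_left hgt hd
    nlinarith
  have hfin := (h0le.trans (hrmax hr0K)).trans (hmain.trans hgibbs)
  rw [← Real.log_pow] at hfin
  exact (Real.log_le_log_iff (pow_pos hppos _) hSpos).1 hfin

end Vale.Agent.P050.H398
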