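import Vale.Agent.P050.H398.Ext

/-!
Laws on the prism over a growing graph, with the list of good sets of rungs.
-/

set_option linter.unusedSectionVars false

namespace Vale.Agent.P050.H398

open Finset Vale.Agent.P050.Cart

variable {V U : Type} [DecidableEq V] [Fintype U]

section exc

/-- the excess of a set of rungs -/
noncomputable def exc {Ω : Type} [Fintype Ω] (θ : ℝ) (m : Bool → U → ℝ) (π : U → U → ℝ)
    (P : Ω → ℝ) (Z : V → Ω → U × U) (Q : Finset V) : ℝ :=
  Q.card * hr π - eQ P Z Q - θ * (Q.card * (hm m false + hm m true) -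
    eQ P (fun v ω => (Z v ω).1) Q - eQ P (fun v ω => (Z v ω).2) Q)

open Classical in
/-- the number of pairs of adjacent vertices -/
noncomputable def dd (H : SimpleGraph V) (A B : Finset V) : ℝ :=
  ∑ u ∈ A, ∑ v ∈ B, if H.Adj u v then 1 else 0

theorem dd_nonneg (H : SimpleGraph V) (A B : Finset V) : 0 ≤ dd H A B := by
  classical
  unfold dd
  refine Finset.sum_nonneg fun u _ => Finset.sum_nonneg fun v _ => ?_
  split_ifs <;> norm_num

theorem dd_comm (H : SimpleGraph V) (A B : Finset V) : dd H A B = dd H B A := by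
  classical
  unfold dd
  rw [Finset.sum_comm]
  refine Finset.sum_congr rfl fun u _ => Finset.sum_congr rfl fun v _ => ?_
  rw [H.adj_comm]

theorem dd_union (H : SimpleGraph V) {A B : Finset V} (h : Disjoint A B) :
    dd H (A ∪ B) (A ∪ B) = dd H A A + 2 * dd H B A + dd H B B := by
  classical
  have e : ∀ C, dd H C (A ∪ B) = dd H C A + dd H C B := by
    intro C
    unfold dd
    rw [← Finset.sum_add_distrib]
    exact Finset.sum_congr rfl fun u _ => Finset.sum_union h
  have e2 : dd H (A ∪ B) (A ∪ B) = dd H A (A ∪ B) + dd H B (A ∪ B) := by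
    unfold dd
    exact Finset.sum_union h
  rw [e2, e, e, dd_comm H A B]
  ring

variable {Ω : Type} [Fintype Ω] {θ : ℝ} {m : Bool → U → ℝ} {π : U → U → ℝ} {s : V → Bool}

theorem ent_vertex (hB : Base m π) {P : Ω → ℝ} {Z : Ω → U × U} {b : Bool}
    (h : mar P Z = rho π b) : ent P Z = hr π := by
  rw [ent_comp hB h (fun z => z), ent_rho hB]

theorem ent_vertex_fst (hB : Base m π) {P : Ω → ℝ} {Z : Ω → U × U} {b : Bool}
    (h : mar P Z = rho π b) : ent P (fun ω => (Z ω).1) = hm m b := by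
  rw [ent_comp hB h (fun z => z.1), ent_comp hB (mar_rho_fst hB b) (fun z => z)]
  rfl

theorem ent_vertex_snd (hB : Base m π) {P : Ω → ℝ} {Z : Ω → U × U} {b : Bool}
    (h : mar P Z = rho π b) : ent P (fun ω => (Z ω).2) = hm m (!b) := by
  rw [ent_comp hB h (fun z => z.2), ent_comp hB (mar_rho_snd hB b) (fun z => z)]
  rfl

theorem hm_add (b : Bool) : hm m b + hm m (!b) = hm m false + hm m true := by
  cases b
  · rfl
  · exact add_comm _ _

theorem exc_nonneg (hB : Base m π) (hθ : 0 ≤ θ) (hHC : HC θ π) {P : Ω → ℝ}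
    (hP : ∀ ω, 0 ≤ P ω) (h1 : ∑ ω, P ω = 1) {Z : V → Ω → U × U} {Q : Finset V}
    (hZ : ∀ v ∈ Q, mar P (Z v) = rho π (s v)) : 0 ≤ exc θ m π P Z Q := by
  have h := hHC.set hθ hP h1 Z s Q hZ
  rw [Finset.sum_congr rfl fun v hv => ent_vertex hB (hZ v hv),
    Finset.sum_congr rfl fun v hv => ent_vertex_fst hB (hZ v hv),
    Finset.sum_congr rfl fun v hv => ent_vertex_snd hB (hZ v hv), Finset.sum_const,
    nsmul_eq_mul] at h
  have e : ∑ v ∈ Q, hm m (s v) + ∑ v ∈ Q, hm m (!s v) = Q.card * (hm m false + hm m true) := by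
    rw [← Finset.sum_add_distrib, Finset.sum_congr rfl fun v _ => hm_add (s v), Finset.sum_const,
      nsmul_eq_mul]
  unfold exc
  rw [← e]
  have e2 : ∀ a b c d : ℝ, θ * (a + b - c - d) = θ * ((a - c) + (b - d)) := by
    intro a b c d
    ring
  rw [e2]
  linarith

theorem exc_empty {P : Ω → ℝ} (h1 : ∑ ω, P ω = 1) {Z : V → Ω → U × U} :
    exc θ m π P Z ∅ = 0 := by
  unfold exc
  rw [eQ_empty h1, eQ_empty h1, eQ_empty h1]
  simp

theorem exc_single (hB : Base m π) {P : Ω → ℝ} {Z : V → Ω → U × U} {w : V} {b : Bool}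
    (h : mar P (Z w) = rho π b) : exc θ m π P Z {w} = 0 := by
  unfold exc
  rw [eQ_single, eQ_single, eQ_single, ent_vertex hB h, ent_vertex_fst hB h, ent_vertex_snd hB h,
    card_singleton, ← hm_add b]
  push_cast
  ring

end exc

section new

variable {Ω γ : Type} [Fintype Ω] [Fintype γ] {θ : ℝ} {m : Bool → U → ℝ} {π : U → U → ℝ}
  {S N : Finset V} {P : Ω → ℝ} {Z : V → Ω → U × U} {G : V → γ → U × U}
  {κ : ({v // v ∈ N} → U × U) → γ → ℝ}

theorem exc_new_old (hP : ∀ ω, 0 ≤ P ω) (h1 : ∀ a, mar P (fam Z N) a ≠ 0 → ∑ c, κ a c = 1)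
    {Q : Finset V} (hQ : Q ⊆ S) :
    exc θ m π (ext P (fam Z N) κ) (newZ S Z G) Q = exc θ m π P Z Q := by
  unfold exc
  have e0 := eQ_new_old (G := G) hP h1 (fun a => a) hQ
  have e1 := eQ_new_old (G := G) hP h1 (fun a => a.1) hQ
  have e2 := eQ_new_old (G := G) hP h1 (fun a => a.2) hQ
  have e0' : eQ (ext P (fam Z N) κ) (newZ S Z G) Q = eQ P Z Q := e0
  rw [e0', e1, e2]

theorem exc_new_le (hθ : 0 ≤ θ) (hP : ∀ ω, 0 ≤ P ω) (hκ : ∀ a c, 0 ≤ κ a c)
    (h1 : ∀ a, mar P (fam Z N) a ≠ 0 → ∑ c, κ a c = 1) {Q R : Finset V} (hNQ : N ⊆ Q)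
    (hQ : Q ⊆ S) (hR : ∀ v ∈ R, v ∉ S) :
    exc θ m π (ext P (fam Z N) κ) (newZ S Z G) (Q ∪ R) + exc θ m π P Z N ≤
      exc θ m π P Z Q + exc θ m π (ext P (fam Z N) κ) (newZ S Z G) (N ∪ R) := by
  have hd1 : Disjoint Q R := by
    rw [Finset.disjoint_left]
    exact fun v hv hv' => hR v hv' (hQ hv)
  have hd2 : Disjoint N R := by
    rw [Finset.disjoint_left]
    exact fun v hv hv' => hR v hv' (hQ (hNQ hv))
  have e0 := eQ_new_eq (G := G) hP hκ h1 hNQ hQ hR
  have e1 := eQ_new_le (G := G) hP hκ h1 (fun a => a.1) hNQ hQ hR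
  have e2 := eQ_new_le (G := G) hP hκ h1 (fun a => a.2) hNQ hQ hR
  unfold exc
  rw [Finset.card_union_of_disjoint hd1, Finset.card_union_of_disjoint hd2]
  push_cast
  have k1 := mul_le_mul_of_nonneg_left e1 hθ
  have k2 := mul_le_mul_of_nonneg_left e2 hθ
  linarith

end new

/-- a law on the prism over the subgraph induced on `S`, with the list `T` of good sets -/
structure Sta (θ : ℝ) (m : Bool → U → ℝ) (π : U → U → ℝ) (s : V → Bool) (H : SimpleGraph V)
    (S : Finset V) (T : Finset V → Prop) {Ω : Type} [Fintype Ω] (P : Ω → ℝ)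
    (Z : V → Ω → U × U) : Prop where
  nonneg : ∀ ω, 0 ≤ P ω
  total : ∑ ω, P ω = 1
  vertex : ∀ v ∈ S, mar P (Z v) = rho π (s v)
  edge : ∀ u ∈ S, ∀ v ∈ S, H.Adj u v →
    mar P (fun ω => ((Z u ω).1, (Z v ω).1)) = rho π (s u) ∧
      mar P (fun ω => ((Z u ω).2, (Z v ω).2)) = rho π (!s u)
  sub : ∀ Q, T Q → Q ⊆ S
  good : ∀ Q, T Q → exc θ m π P Z Q ≤ (1 - θ) * dd H Q Q * ii m π

theorem ii_nonneg {m : Bool → U → ℝ} {π : U → U → ℝ} (hB : Base m π) : 0 ≤ ii m π := by
  have h1 : ∀ z, 0 ≤ rho π false z := fun z => by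
    unfold rho
    simp only [Bool.false_eq_true, if_false]
    exact hB.pi0 _ _
  have h2 : ∑ z, rho π false z = 1 := by
    rw [Fintype.sum_prod_type]
    have e : ∀ x, ∑ y, rho π false (x, y) = m false x := fun x => hB.row x
    simp_rw [e]
    exact hB.m1 false
  have h := ent_subadd h1 h2 (fun z => z.1) (fun z => z.2)
  have e1 : ent (rho π false) (fun z => z.1) = hm m false := by
    rw [ent_comp hB (mar_rho_fst hB false) (fun z => z)]
    rfl
  have e2 : ent (rho π false) (fun z => z.2) = hm m true := by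
    rw [ent_comp hB (mar_rho_snd hB false) (fun z => z)]
    rfl
  rw [e1, e2] at h
  unfold ii hr
  have e3 : ent (rho π false) (fun z => (z.1, z.2)) = ent (rho π false) (fun z => z) := rfl
  rw [e3] at h
  linarith

end Vale.Agent.P050.H398
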